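import Crest.Agent.N207.S.Out.Defs

/-!
Row 207 (S0320), block OUTER: the jets of `V` and of the source term.
-/

set_option autoImplicit false

open Set Filter
open scoped Topology

namespace Crest.Agent.N207.S.Out

noncomputable section

variable {e d α t0 t1 xs t x : ℝ} {w wt k kt u v : ℕ → ℝ → ℝ → ℝ}

theorem sub0 : Ioo (0 : ℝ) xs ⊆ Ioi 0 := fun _ h => h.1

theorem isSeq_u (h : Jet t0 t1 xs u v) (ht : t ∈ Icc t0 t1) :
    IsSeq (Ioo 0 xs) fun j => u j t := fun j x hx =>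
  (h.dx j t x ht (Ioo_subset_Icc_self hx)).hasDerivAt (Icc_mem_nhds hx.1 hx.2)

theorem isSeq_v (h : Jet t0 t1 xs u v) (ht : t ∈ Icc t0 t1) :
    IsSeq (Ioo 0 xs) fun j => v j t := fun j x hx =>
  (h.dv j t x ht (Ioo_subset_Icc_self hx)).hasDerivAt (Icc_mem_nhds hx.1 hx.2)

theorem isSeq_W (h : Jet t0 t1 xs w wt) (ht : t ∈ Icc t0 t1) :
    IsSeq (Ioo 0 xs) fun j => WS w j t := (isSeq_u h ht).sub (isSeq_pw 1 sub0)

theorem isSeq_V (h : Jet t0 t1 xs w wt) (ht : t ∈ Icc t0 t1) :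
    IsSeq (Ioo 0 xs) fun j => VV α w j t := (isSeq_pw (-α) sub0).pr (isSeq_W h ht)

theorem isSeq_VT (h : Jet t0 t1 xs w wt) (ht : t ∈ Icc t0 t1) :
    IsSeq (Ioo 0 xs) fun j => VT α wt j t := (isSeq_pw (-α) sub0).pr (isSeq_v h ht)

theorem isSeq_F (h : Jet t0 t1 xs w wt) (ht : t ∈ Icc t0 t1) :
    IsSeq (Ioo 0 xs) fun j => FF d α w wt j t := by
  intro j x hx
  have a := isSeq_VT (α := α) h ht j x hx
  have b := isSeq_V (α := α) h ht (j + 2) x hx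
  have c := isSeq_V (α := α) h ht (j + 1) x hx
  have := a.sub (((((hasDerivAt_id x).const_mul d).mul b)).add
    (c.const_mul (1 - d + 2 * d * α + j * d)))
  refine HasDerivAt.congr_deriv this ?_
  simp only [FF, id]
  push_cast
  ring

theorem dt_V (h : Jet t0 t1 xs w wt) (ht : t ∈ Icc t0 t1) (hx : x ∈ Ioo 0 xs) (j : ℕ) :
    HasDerivWithinAt (fun s => VV α w j s x) (VT α wt j t x) (Icc t0 t1) t := by
  have := hasDerivWithinAt_mulS (f := pw (-α)) (x := x) (u := WS w) (v := fun i => wt i t x)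
    (fun i => (h.dt i t x ht (Ioo_subset_Icc_self hx)).sub_const (pw 1 i x)) j
  refine this.congr_deriv ?_
  exact mulS_congr j fun _ => rfl

theorem cont_pw (p : ℝ) (i : ℕ) :
    ContinuousOn (fun q : ℝ × ℝ => pw p i q.2) (Icc t0 t1 ×ˢ Ioo 0 xs) := fun q hq =>
  (ContinuousAt.comp (isSeq_pw p sub0 i q.2 hq.2).continuousAt
    continuous_snd.continuousAt).continuousWithinAt

theorem cont_V (h : Jet t0 t1 xs w wt) (j : ℕ) :
    ContinuousOn (fun q : ℝ × ℝ => VV α w j q.1 q.2) (Icc t0 t1 ×ˢ Ioo 0 xs) :=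
  continuousOn_mulS (u := WS w) (cont_pw (-α))
    (fun i => ((h.cu i).mono (prod_mono subset_rfl Ioo_subset_Icc_self)).sub (cont_pw 1 i)) j

theorem cont_VT (h : Jet t0 t1 xs w wt) (j : ℕ) :
    ContinuousOn (fun q : ℝ × ℝ => VT α wt j q.1 q.2) (Icc t0 t1 ×ˢ Ioo 0 xs) :=
  continuousOn_mulS (u := wt) (cont_pw (-α))
    (fun i => (h.cv i).mono (prod_mono subset_rfl Ioo_subset_Icc_self)) j

theorem W_eq (h : Jet t0 t1 xs w wt) (ht : t ∈ Icc t0 t1) (hx : x ∈ Ioo 0 xs) (j : ℕ) :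
    WS w j t x = pr (pw α) (fun i => VV α w i t) j x := by
  refine IsSeq.unique isOpen_Ioo (isSeq_W h ht) ((isSeq_pw α sub0).pr (isSeq_V h ht))
    (fun y hy => ?_) j x hx
  simp only [pr_zero, VV, mulS, pw_zero]
  rw [← mul_assoc, ← Real.rpow_add hy.1]
  simp

theorem cf_one_high (j : ℕ) : cf 1 (j + 2) = 0 := by
  induction j with
  | zero => simp [cf]
  | succ j ih => rw [cf, ih, zero_mul]

theorem WS_zero (w : ℕ → ℝ → ℝ → ℝ) (t x : ℝ) : WS w 0 t x = w 0 t x - x := by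
  simp [WS, pw_zero]

theorem WS_one (w : ℕ → ℝ → ℝ → ℝ) (t x : ℝ) : WS w 1 t x = w 1 t x - 1 := by
  simp [WS, pw, cf]

theorem WS_high (w : ℕ → ℝ → ℝ → ℝ) (j : ℕ) (t x : ℝ) : WS w (j + 2) t x = w (j + 2) t x := by
  simp [WS, pw, cf_one_high]

/-- jets of `z = 1 - x k` -/
def zS (k : ℕ → ℝ → ℝ) : ℕ → ℝ → ℝ := fun j x => pw 0 j x - pr (pw 1) k j x

/-- jets of `z - z₀` -/
def zeS (e : ℝ) (k : ℕ → ℝ → ℝ) : ℕ → ℝ → ℝ := fun j x => zS k j x - 1 / (1 + 2 * e) * pw 0 j x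

/-- jets of `W' - W / x` -/
def s2S (W : ℕ → ℝ → ℝ) : ℕ → ℝ → ℝ := fun j x => sh W j x - pr (pw (-1)) W j x

/-- jets of `x W'' - W' + W / x` -/
def s1S (W : ℕ → ℝ → ℝ) : ℕ → ℝ → ℝ := fun j x => pr (pw 1) (sh (sh W)) j x - s2S W j x

/-- jets of the quadratic error -/
def ES (e : ℝ) (w W k : ℕ → ℝ → ℝ) : ℕ → ℝ → ℝ := fun j x =>
  2 * e * pr (zeS e k) (s1S W) j x -
    2 * e * pr (pr (zS k) (pr (pw 1) (rS w))) (pr (s2S W) (s2S W)) j x

theorem isSeq_z {U : Set ℝ} (hU : U ⊆ Ioi 0) {k : ℕ → ℝ → ℝ} (hk : IsSeq U k) :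
    IsSeq U (zS k) := (isSeq_pw 0 hU).sub ((isSeq_pw 1 hU).pr hk)

theorem isSeq_ze {U : Set ℝ} (hU : U ⊆ Ioi 0) {k : ℕ → ℝ → ℝ} (hk : IsSeq U k) :
    IsSeq U (zeS e k) := (isSeq_z hU hk).sub ((isSeq_pw 0 hU).cmul _)

theorem isSeq_s2 {U : Set ℝ} (hU : U ⊆ Ioi 0) {W : ℕ → ℝ → ℝ} (hW : IsSeq U W) :
    IsSeq U (s2S W) := hW.sh.sub ((isSeq_pw (-1) hU).pr hW)

theorem isSeq_s1 {U : Set ℝ} (hU : U ⊆ Ioi 0) {W : ℕ → ℝ → ℝ} (hW : IsSeq U W) :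
    IsSeq U (s1S W) := ((isSeq_pw 1 hU).pr hW.sh.sh).sub (isSeq_s2 hU hW)

theorem zeS_zero (e : ℝ) (k : ℕ → ℝ → ℝ) (x : ℝ) :
    zeS e k 0 x = 1 - x * k 0 x - 1 / (1 + 2 * e) := by
  simp [zeS, zS, pr_zero, pw_zero]

theorem F_eq (hp : Par e d α) (h : XSol e t0 t1 xs w wt k kt) (ht : t ∈ Icc t0 t1)
    (hx : x ∈ Ioo 0 xs) (j : ℕ) :
    FF d α w wt j t x =
      pr (pw (-α)) (ES e (fun i => w i t) (fun i => WS w i t) fun i => k i t) j x := by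
  have hw := isSeq_u h.jw ht
  have hW := isSeq_W h.jw ht
  have hk := isSeq_u h.jk ht
  have hpos : ∀ y ∈ Ioo 0 xs, 0 < w 0 t y := fun y hy => h.pos t y ht (Ioo_subset_Icc_self hy)
  have hr := hw.rS isOpen_Ioo fun y hy => (hpos y hy).ne'
  have hE : IsSeq (Ioo 0 xs) (ES e (fun i => w i t) (fun i => WS w i t) fun i => k i t) :=
    (((isSeq_ze sub0 hk).pr (isSeq_s1 sub0 hW)).cmul _).sub
      ((((isSeq_z sub0 hk).pr ((isSeq_pw 1 sub0).pr hr)).pr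
        ((isSeq_s2 sub0 hW).pr (isSeq_s2 sub0 hW))).cmul _)
  refine IsSeq.unique isOpen_Ioo (isSeq_F h.jw ht) ((isSeq_pw (-α) sub0).pr hE)
    (fun y hy => ?_) j x hx
  have hy0 := hy.1
  have hw0 := hpos y hy
  have e0 := hp.e0
  have e1 : FF d α w wt 0 t y = y ^ (-α) *
      (wt 0 t y - d * y * WS w 2 t y - (1 - d) * WS w 1 t y - d * WS w 0 t y / y) := by
    have a1 : VV α w 1 t y = _ := pr_one (pw (-α)) (fun i => WS w i t) y
    have a2 : VV α w 2 t y = _ := pr_two (pw (-α)) (fun i => WS w i t) y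
    have a0 : VT α wt 0 t y = _ := pr_zero (pw (-α)) (fun i => wt i t) y
    simp only [FF, zero_add, Nat.cast_zero, a0, a1, a2, pw_zero, pw_one _ hy0, pw_two _ hy0]
    linear_combination (norm := (field_simp; ring1)) (y ^ (-α) * WS w 0 t y / y) * hp.hα
  rw [e1, pr_zero, pw_zero]
  congr 1
  rw [h.eqW t y ht (Ioo_subset_Icc_self hy), WS_high w 0, WS_one, WS_zero, hp.hd]
  simp only [ES, pr_zero, zeS_zero, s1S, s2S, zS, sh, pw_zero, rS_zero, WS_high w 0, WS_one,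
    WS_zero, zero_add, Real.rpow_zero, Real.rpow_one, Real.rpow_neg_one, rhsW,
    show (1 + 1 : ℕ) = 0 + 2 from rfl]
  field_simp
  ring

end

end Crest.Agent.N207.S.Out
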