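import Crest.Agent.N207.S.Out.Seq

/-!
Row 207 (S0320), block OUTER: mean value lemmas and the Landau interpolation inequality.
-/

set_option autoImplicit false

open Set Filter
open scoped Topology

namespace Crest.Agent.N207.S.Out

theorem abs_sub_le_of_deriv {u u' : ℝ → ℝ} {a b B y z : ℝ}
    (hu : ∀ s ∈ Icc a b, HasDerivAt u (u' s) s) (hB : ∀ s ∈ Icc a b, |u' s| ≤ B)
    (hy : y ∈ Icc a b) (hz : z ∈ Icc a b) : |u z - u y| ≤ B * |z - y| := by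
  have := (convex_Icc a b).norm_image_sub_le_of_norm_hasDerivWithin_le
    (fun s hs => (hu s hs).hasDerivWithinAt) (fun s hs => by simpa using hB s hs) hy hz
  simpa using this

theorem landau_step {u0 u1 u2 : ℝ → ℝ} {a b δ S0 S2 y : ℝ}
    (h0 : ∀ s ∈ Icc a b, HasDerivAt u0 (u1 s) s) (h1 : ∀ s ∈ Icc a b, HasDerivAt u1 (u2 s) s)
    (b0 : ∀ s ∈ Icc a b, |u0 s| ≤ S0) (b2 : ∀ s ∈ Icc a b, |u2 s| ≤ S2) (hδ : 0 < δ)
    (hab : 2 * δ ≤ b - a) (hy : y ∈ Icc a b) : |u1 y| * δ ≤ 2 * S0 + S2 * δ ^ 2 := by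
  obtain ⟨z, hz, hd⟩ : ∃ z ∈ Icc a b, |z - y| = δ := by
    rcases le_total (y + δ) b with h | h
    · exact ⟨y + δ, ⟨by linarith [hy.1], h⟩, by simp [abs_of_pos hδ]⟩
    · exact ⟨y - δ, ⟨by linarith, by linarith [hy.2]⟩, by simp [abs_of_pos hδ]⟩
  have hsub : uIcc y z ⊆ Icc a b := uIcc_subset_Icc hy hz
  have hS2 : 0 ≤ S2 := (abs_nonneg _).trans (b2 y hy)
  have key : |(u0 z - u1 y * z) - (u0 y - u1 y * y)| ≤ S2 * δ * |z - y| := by
    refine abs_sub_le_of_deriv (u := fun s => u0 s - u1 y * s) (u' := fun s => u1 s - u1 y)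
      (a := y ⊓ z) (b := y ⊔ z) (fun s hs => ?_) (fun s hs => ?_) left_mem_uIcc right_mem_uIcc
    · exact ((h0 s (hsub hs)).sub ((hasDerivAt_id s).const_mul (u1 y))).congr_deriv (by simp)
    · refine (abs_sub_le_of_deriv h1 b2 hy (hsub hs)).trans ?_
      refine mul_le_mul_of_nonneg_left ?_ hS2
      rw [← hd]
      exact abs_sub_left_of_mem_uIcc hs
  have e : u1 y * (z - y) = (u0 z - u0 y) - ((u0 z - u1 y * z) - (u0 y - u1 y * y)) := by ring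
  have t1 := abs_sub (u0 z - u0 y) ((u0 z - u1 y * z) - (u0 y - u1 y * y))
  have t2 := abs_sub (u0 z) (u0 y)
  rw [← e, abs_mul, hd] at t1
  rw [hd] at key
  nlinarith [b0 z hz, b0 y hy]

theorem disc_max {a : ℕ → ℝ} {m : ℕ} {B : ℝ} (hB : 0 ≤ B)
    (h : ∀ i, i + 2 ≤ m → a (i + 1) ≤ a i / 4 + a (i + 2) / 2) (h0 : a 0 ≤ B) (hm : a m ≤ B) :
    ∀ j ≤ m, a j ≤ B := by
  obtain ⟨i, hi, hmax⟩ := Finset.exists_max_image (Finset.range (m + 1)) a ⟨0, by simp⟩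
  have hi' : i ≤ m := Nat.lt_succ_iff.1 (Finset.mem_range.1 hi)
  have hm' : ∀ j ≤ m, a j ≤ a i := fun j hj => hmax j (Finset.mem_range.2 (Nat.lt_succ_of_le hj))
  have : a i ≤ B := by
    rcases hi'.eq_or_lt with e | e
    · rw [e]; exact hm
    rcases i with _ | i
    · exact h0
    have := h i e
    have b1 := hm' i (by omega)
    have b2 := hm' (i + 2) e
    linarith
  exact fun j hj => (hm' j hj).trans this

/-- **Landau interpolation** on `[x/2, x]`. -/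
theorem landau (m : ℕ) : ∃ L ρ0 : ℝ, 1 ≤ L ∧ 0 < ρ0 ∧ ∀ (f : ℕ → ℝ → ℝ) (x ρ B : ℝ),
    IsSeq (Icc (x / 2) x) f → 0 < x → 0 < ρ → ρ ≤ ρ0 → (∀ y ∈ Icc (x / 2) x, |f 0 y| ≤ B) →
    (∀ y ∈ Icc (x / 2) x, |f m y| * (ρ * x) ^ m ≤ B) → ∀ j ≤ m, |f j x| * (ρ * x) ^ j ≤ L * B := by
  refine ⟨4 ^ (m ^ 2), 1 / (2 * 16 ^ m), one_le_pow₀ (by norm_num), by positivity, ?_⟩
  intro f x ρ B hf hx hρ hρ0 b0 bm
  have hxI : x ∈ Icc (x / 2) x := ⟨by linarith, le_rfl⟩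
  have hB : 0 ≤ B := (abs_nonneg _).trans (b0 x hxI)
  have hmax : ∀ j, ∃ y ∈ Icc (x / 2) x, ∀ s ∈ Icc (x / 2) x, |f j s| ≤ |f j y| := fun j => by
    obtain ⟨y, hy, h⟩ := isCompact_Icc.exists_isMaxOn (f := fun s => |f j s|) ⟨x, hxI⟩
      fun s hs => (hf j s hs).continuousAt.abs.continuousWithinAt
    exact ⟨y, hy, fun s hs => h hs⟩
  choose y hy hS using hmax
  obtain ⟨r, hr⟩ : ∃ r, r = ρ * x := ⟨_, rfl⟩
  have hr0 : 0 < r := by rw [hr]; positivity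
  rw [← hr] at bm ⊢
  have hL : (1 : ℝ) ≤ 4 ^ (m ^ 2) := one_le_pow₀ (by norm_num)
  have key := disc_max (a := fun j => |f j (y j)| * r ^ j * 4 ^ (j ^ 2)) (m := m)
    (B := 4 ^ (m ^ 2) * B) (by positivity) (fun i hi => ?_) (by
      simp only [pow_zero, mul_one, ne_eq, OfNat.ofNat_ne_zero, not_false_eq_true, zero_pow]
      nlinarith [b0 _ (hy 0)]) (by
      have := bm _ (hy m)
      nlinarith)
  · intro j hj
    refine le_trans ?_ (key j hj)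
    have h1 : (1 : ℝ) ≤ 4 ^ (j ^ 2) := one_le_pow₀ (by norm_num)
    have h2 := mul_le_mul_of_nonneg_right (hS j x hxI) (pow_pos hr0 j).le
    have h3 : 0 ≤ |f j (y j)| * r ^ j := by positivity
    nlinarith
  obtain ⟨Q, hQ⟩ : ∃ Q : ℝ, Q = 4 ^ (2 * i + 1) := ⟨_, rfl⟩
  obtain ⟨P, hP⟩ : ∃ P : ℝ, P = 4 ^ (i ^ 2) := ⟨_, rfl⟩
  have hQ0 : 0 < Q := by rw [hQ]; positivity
  have hP0 : 0 < P := by rw [hP]; positivity
  have e1 : (4 : ℝ) ^ ((i + 1) ^ 2) = P * Q := by rw [hP, hQ, ← pow_add]; congr 1; ring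
  have e2 : (4 : ℝ) ^ ((i + 2) ^ 2) = P * Q * (16 * Q) := by
    rw [hP, hQ, show (16 : ℝ) = 4 ^ 2 by norm_num, ← pow_add, ← pow_add, ← pow_add]
    congr 1; ring
  have hQ1 : 64 * Q ≤ 16 ^ m := by
    rw [hQ, show (16 : ℝ) = 4 ^ 2 by norm_num, show (64 : ℝ) = 4 ^ 3 by norm_num, ← pow_add,
      ← pow_mul]
    exact pow_le_pow_right₀ (by norm_num) (by omega)
  have hρ1 : ρ * (2 * 16 ^ m) ≤ 1 := by rwa [le_div_iff₀ (by positivity)] at hρ0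
  have hδ : 2 * (8 * Q * r) ≤ x - x / 2 := by
    have : ρ * (128 * Q) ≤ 1 := by nlinarith
    rw [hr]; nlinarith
  have st := landau_step (hf i) (hf (i + 1)) (hS i) (hS (i + 2)) (δ := 8 * Q * r)
    (by positivity) hδ (hy (i + 1))
  have st2 := mul_le_mul_of_nonneg_right st (show 0 ≤ r ^ i * P / 8 by positivity)
  rw [e1, e2, ← hP, pow_succ r (i + 1), pow_succ r i]
  nlinarith

end Crest.Agent.N207.S.Out
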