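import Crest.Agent.N207.S.Out.Vj
import Crest.Agent.N207.S.Out.Lan

/-!
Row 207 (S0320), block OUTER: from the bound on `V''''` and the cube to the outer estimates.
-/

set_option autoImplicit false

open Set Filter
open scoped Topology

namespace Crest.Agent.N207.S.Out

noncomputable section

theorem abs_sub_le_of_deriv_le {f f' g g' : ℝ → ℝ} {a b : ℝ} (hab : a ≤ b)
    (hf : ∀ s ∈ Icc a b, HasDerivAt f (f' s) s) (hg : ∀ s ∈ Icc a b, HasDerivAt g (g' s) s)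
    (h : ∀ s ∈ Icc a b, |f' s| ≤ g' s) : |f b - f a| ≤ g b - g a := by
  have key : ∀ σ : ℝ, |σ| ≤ 1 → g a - σ * f a ≤ g b - σ * f b := fun σ hσ => by
    have hd : ∀ s ∈ Icc a b, HasDerivAt (fun s => g s - σ * f s) (g' s - σ * f' s) s :=
      fun s hs => (hg s hs).sub ((hf s hs).const_mul σ)
    refine monotoneOn_of_deriv_nonneg (convex_Icc a b)
      (fun s hs => (hd s hs).continuousAt.continuousWithinAt)
      (fun s hs => (hd s (interior_subset hs)).differentiableAt.differentiableWithinAt)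
      (fun s hs => ?_) (left_mem_Icc.2 hab) (right_mem_Icc.2 hab) hab
    rw [(hd s (interior_subset hs)).deriv]
    have b1 := h s (interior_subset hs)
    have b2 : σ * f' s ≤ |f' s| := by
      refine (le_abs_self _).trans ?_
      rw [abs_mul]; exact mul_le_of_le_one_left (abs_nonneg _) hσ
    linarith
  have a1 := key 1 (by simp)
  have a2 := key (-1) (by simp)
  rw [abs_le]; constructor <;> linarith

theorem root20 {x : ℝ} (hx : 0 < x) (h1 : x ≤ (1 / 10 ^ 4) ^ 20) :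
    ∃ s : ℝ, 0 < s ∧ s ≤ 1 / 10 ^ 4 ∧ x = s ^ 20 ∧
      ∀ (p : ℝ) (n : ℕ), 20 * p = n → x ^ p = s ^ n ∧ x ^ (-p) = (s ^ n)⁻¹ := by
  obtain ⟨s, hs, hsx⟩ : ∃ s : ℝ, 0 < s ∧ x = s ^ 20 :=
    ⟨x ^ ((20 : ℕ)⁻¹ : ℝ), by positivity, (Real.rpow_inv_natCast_pow hx.le (by norm_num)).symm⟩
  refine ⟨s, hs, ?_, hsx, fun p n h => ?_⟩
  · rw [hsx] at h1
    exact le_of_pow_le_pow_left₀ (by norm_num) (by positivity) h1
  · have : x ^ p = s ^ n := by
      rw [hsx, ← Real.rpow_natCast, ← Real.rpow_mul hs.le, ← Real.rpow_natCast, ← h]; norm_num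
    exact ⟨this, by rw [Real.rpow_neg hx.le, this]⟩

theorem V3_bound {V : ℕ → ℝ → ℝ} {a X x : ℝ} (ha : 0 < a) (hX : X ≤ (1 / 10 ^ 4) ^ 20)
    (hV : IsSeq (Icc a X) V) (h4 : ∀ y ∈ Icc a X, |V 4 y| ≤ 2 * y ^ (-(19 / 20) : ℝ))
    (h3 : |V 3 X + 3| ≤ 1 / 200) (hx : x ∈ Icc a X) : |V 3 x + 3| ≤ 1 / 100 := by
  have hsub : Icc x X ⊆ Icc a X := Icc_subset_Icc hx.1 le_rfl
  have hx0 : 0 < x := ha.trans_le hx.1
  have key := abs_sub_le_of_deriv_le (f := V 3) (f' := V 4) (g := fun y => 40 * y ^ (1 / 20 : ℝ))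
    (g' := fun y => 2 * y ^ (-(19 / 20) : ℝ)) hx.2 (fun s hs => hV 3 s (hsub hs))
    (fun s hs => by
      refine ((Real.hasDerivAt_rpow_const (x := s) (p := 1 / 20)
        (Or.inl (hx0.trans_le hs.1).ne')).const_mul 40).congr_deriv ?_
      rw [show (1 / 20 - 1 : ℝ) = -(19 / 20) by norm_num]; ring)
    fun s hs => h4 s (hsub hs)
  obtain ⟨s, -, s1, -, hp⟩ := root20 (hx0.trans_le hx.2) hX
  have e := (hp (1 / 20) 1 (by norm_num)).1
  have : 0 ≤ x ^ (1 / 20 : ℝ) := Real.rpow_nonneg hx0.le _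
  simp only [e, pow_one] at key
  rw [abs_le] at key h3 ⊢
  constructor <;> linarith [key.1, key.2, h3.1, h3.2]

theorem taylor3 {V : ℕ → ℝ → ℝ} {a m τ : ℝ} (ha : 0 ≤ a) (hτ : τ ∈ Icc a m)
    (hV : IsSeq (Icc a m) V) (h3 : ∀ y ∈ Icc a m, |V 3 y + 3| ≤ 1 / 100)
    (c0 : |V 0 τ| ≤ τ ^ 3 / 100) (c1 : |V 1 τ| ≤ τ ^ 2 / 100) (c2 : |V 2 τ| ≤ τ / 100) :
    ∀ y ∈ Icc a m, |V 0 y - (τ - y) ^ 3 / 2| ≤ 4 * m ^ 3 / 100 ∧
      |V 1 y + 3 * (τ - y) ^ 2 / 2| ≤ 3 * m ^ 2 / 100 ∧ |V 2 y - 3 * (τ - y)| ≤ 2 * m / 100 := by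
  have hτ0 : 0 ≤ τ := ha.trans hτ.1
  have hm : 0 ≤ m := hτ0.trans hτ.2
  have hd : ∀ y ∈ Icc a m, |y - τ| ≤ m := fun y hy => by
    rw [abs_le]; constructor <;> linarith [hy.1, hy.2, hτ.1, hτ.2]
  have hl : ∀ y : ℝ, HasDerivAt (fun y => τ - y) (-1) y := fun y => (hasDerivAt_id y).const_sub τ
  have b2 : ∀ y ∈ Icc a m, |V 2 y - 3 * (τ - y)| ≤ 2 * m / 100 := fun y hy => by
    have := abs_sub_le_of_deriv (u := fun y => V 2 y - 3 * (τ - y)) (u' := fun y => V 3 y + 3)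
      (fun s hs => ((hV 2 s hs).sub ((hl s).const_mul 3)).congr_deriv (by ring)) h3 hτ hy
    have t := abs_add_le (V 2 y - 3 * (τ - y) - (V 2 τ - 3 * (τ - τ))) (V 2 τ)
    rw [show V 2 y - 3 * (τ - y) - (V 2 τ - 3 * (τ - τ)) + V 2 τ = V 2 y - 3 * (τ - y) by ring] at t
    linarith [hd y hy, hτ.2]
  have b1 : ∀ y ∈ Icc a m, |V 1 y + 3 * (τ - y) ^ 2 / 2| ≤ 3 * m ^ 2 / 100 := fun y hy => by
    have := abs_sub_le_of_deriv (u := fun y => V 1 y + 3 * (τ - y) ^ 2 / 2)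
      (u' := fun y => V 2 y - 3 * (τ - y))
      (fun s hs => ((hV 1 s hs).add ((((hl s).pow 2).const_mul 3).div_const 2)).congr_deriv
        (by simp; ring)) b2 hτ hy
    have t := abs_add_le (V 1 y + 3 * (τ - y) ^ 2 / 2 - (V 1 τ + 3 * (τ - τ) ^ 2 / 2)) (V 1 τ)
    rw [show V 1 y + 3 * (τ - y) ^ 2 / 2 - (V 1 τ + 3 * (τ - τ) ^ 2 / 2) + V 1 τ =
      V 1 y + 3 * (τ - y) ^ 2 / 2 by ring] at t
    have h1 := mul_le_mul_of_nonneg_left (hd y hy) (show 0 ≤ 2 * m / 100 by positivity)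
    have h2 := pow_le_pow_left₀ hτ0 hτ.2 2
    nlinarith
  refine fun y hy => ⟨?_, b1 y hy, b2 y hy⟩
  have := abs_sub_le_of_deriv (u := fun y => V 0 y - (τ - y) ^ 3 / 2)
    (u' := fun y => V 1 y + 3 * (τ - y) ^ 2 / 2)
    (fun s hs => ((hV 0 s hs).sub (((hl s).pow 3).div_const 2)).congr_deriv
      (by simp; ring)) b1 hτ hy
  have t := abs_add_le (V 0 y - (τ - y) ^ 3 / 2 - (V 0 τ - (τ - τ) ^ 3 / 2)) (V 0 τ)
  rw [show V 0 y - (τ - y) ^ 3 / 2 - (V 0 τ - (τ - τ) ^ 3 / 2) + V 0 τ =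
    V 0 y - (τ - y) ^ 3 / 2 by ring] at t
  have h1 := mul_le_mul_of_nonneg_left (hd y hy) (show 0 ≤ 3 * m ^ 2 / 100 by positivity)
  have h2 := pow_le_pow_left₀ hτ0 hτ.2 3
  nlinarith

variable {e d α t0 t1 xs t T X : ℝ} {w wt : ℕ → ℝ → ℝ → ℝ}

theorem Cube.abs (h : Cube α T w t) (hτ : 0 < T - t) :
    |VV α w 0 t (T - t)| ≤ (T - t) ^ 3 / 100 ∧ |VV α w 1 t (T - t)| ≤ (T - t) ^ 2 / 100 ∧
      |VV α w 2 t (T - t)| ≤ (T - t) / 100 := by
  have a0 := h 0 (by norm_num)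
  have a1 := h 1 (by norm_num)
  have a2 := h 2 (by norm_num)
  simp only [nn, abs_div, abs_pow, abs_of_pos hτ] at a0 a1 a2
  rw [div_le_iff₀ (by positivity)] at a0 a1 a2
  norm_num at a0 a1 a2
  exact ⟨by linarith, by linarith, by linarith⟩

theorem out_of_bounds (hp : Par e d α) (h : Jet t0 t1 xs w wt) (ht : t ∈ Icc t0 t1)
    (hτ : 0 < T - t) (hτX : T - t ≤ X) (hX : X ≤ (1 / 10 ^ 4) ^ 20) (hXs : X < xs)
    (h3 : ∀ y ∈ Icc ((T - t) / 200) X, |VV α w 3 t y + 3| ≤ 1 / 100) (hc : Cube α T w t) :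
    Out T X w t := by
  obtain ⟨c0, c1, c2⟩ := hc.abs hτ
  unfold Out
  generalize T - t = τ at *
  have hV := isSeq_V (α := α) h ht
  have hα : |α| ≤ 1 := by rw [abs_le]; constructor <;> linarith [hp.α0, hp.α1, hp.d1]
  have key : ∀ m, τ ≤ m → m ≤ X → ∀ y ∈ Icc (τ / 200) m, _ := fun m a b =>
    taylor3 (V := fun j => VV α w j t) (a := τ / 200) (m := m) (by positivity) ⟨by linarith, a⟩
      (hV.mono fun y hy => ⟨by linarith [hy.1], by linarith [hy.2]⟩)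
      (fun y hy => h3 y ⟨hy.1, hy.2.trans b⟩) c0 c1 c2
  have pa : ∀ x, 0 < x → x ≤ X → 1 ≤ x ^ α ∧ x ^ α ≤ x ^ (-(1 / 10) : ℝ) := fun x a b => by
    have x1 : x ≤ 1 := b.trans (hX.trans (by norm_num))
    exact ⟨Real.one_le_rpow_of_pos_of_le_one_of_nonpos a x1 hp.α1,
      Real.rpow_le_rpow_of_exponent_ge a x1 (by linarith [hp.α0, hp.d1])⟩
  refine ⟨fun x hx => ?_, ?_⟩
  · have hx0 : 0 < x := lt_of_lt_of_le (by positivity) hx.1
    obtain ⟨m, m1, m2, m3, m4⟩ : ∃ m, τ ≤ m ∧ m ≤ X ∧ x ≤ m ∧ m ≤ 200 * x :=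
      ⟨max x τ, le_max_right _ _, max_le hx.2 hτX, le_max_left _ _,
        max_le (by linarith) (by linarith [hx.1])⟩
    obtain ⟨b0, b1, b2⟩ := key m m1 m2 x ⟨hx.1, m3⟩
    have hd : |τ - x| ≤ m := by rw [abs_le]; constructor <;> linarith
    have hm0 : 0 ≤ m := by linarith
    have q2 := pow_le_pow_left₀ hm0 m4 2
    have q3 := pow_le_pow_left₀ hm0 m4 3
    have hVs : Sz 2 (10 ^ 7 * x ^ 3) (fun j => VV α w j t) x := by
      intro j hj
      have x2 : 0 < x ^ 2 := by positivity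
      have x3 : 0 < x ^ 3 := by positivity
      interval_cases j
      · have := pow_le_pow_left₀ (abs_nonneg _) hd 3
        rw [← abs_pow, abs_le] at this
        simp only [pow_zero, mul_one]
        rw [abs_le] at b0 ⊢
        constructor <;> nlinarith
      · have := pow_le_pow_left₀ (abs_nonneg _) hd 2
        rw [← abs_pow, abs_le] at this
        have b : |VV α w 1 t x| ≤ 10 ^ 7 * x ^ 2 := by
          rw [abs_le] at b1 ⊢
          constructor <;> nlinarith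
        nlinarith
      · have b : |VV α w 2 t x| ≤ 10 ^ 7 * x := by
          rw [abs_le] at b2 hd ⊢
          constructor <;> nlinarith
        nlinarith
    have hWs := ((sz_pw hα hx0 2).pr hx0 hVs).congr
      (W_eq (α := α) h ht ⟨hx0, hx.2.trans_lt hXs⟩)
    obtain ⟨s, s0, s1, hs, hp⟩ := root20 hx0 (hx.2.trans hX)
    have p2 := (pa x hx0 hx.2).2
    rw [(hp (1 / 10) 2 (by norm_num)).2] at p2
    have hW : Sz 2 (s ^ 55) (fun j => WS w j t) x := hWs.le (by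
      have e1 : (s ^ 2)⁻¹ * x ^ 3 = s ^ 3 * s ^ 55 := by rw [hs]; field_simp
      have e2 := mul_le_mul_of_nonneg_right p2 (show 0 ≤ x ^ 3 by positivity)
      have e3 : s ^ 3 ≤ (1 / 10 ^ 4) ^ 3 := pow_le_pow_left₀ s0.le s1 3
      have e4 := mul_le_mul_of_nonneg_right e3 (show 0 ≤ s ^ 55 by positivity)
      have e5 : 0 < s ^ 55 := by positivity
      norm_num [Nat.factorial] at e4 ⊢
      nlinarith)
    have w0 := hW 0 (by norm_num)
    have w1 := hW 1 (by norm_num)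
    have w2 := hW 2 (by norm_num)
    simp only [WS_zero, WS_one, WS_high w 0, pow_zero, mul_one, pow_one] at w0 w1 w2
    rw [(hp (11 / 4) 55 (by norm_num)).1, (hp (7 / 4) 35 (by norm_num)).1,
      (hp (3 / 4) 15 (by norm_num)).1]
    refine ⟨w0, le_of_mul_le_mul_right (w1.trans (le_of_eq ?_)) hx0,
      le_of_mul_le_mul_right (w2.trans (le_of_eq ?_)) (pow_pos hx0 2)⟩
    · rw [hs]; ring
    · rw [hs]; ring
  · have hx0 : 0 < τ / 200 := by positivity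
    have hxX : τ / 200 ≤ X := by linarith
    obtain ⟨b0, -, -⟩ := key τ le_rfl hτX (τ / 200) ⟨le_rfl, by linarith⟩
    have e := W_eq (α := α) h ht ⟨hx0, hxX.trans_lt hXs⟩ 0
    rw [pr_zero, pw_zero, WS_zero] at e
    rw [e]
    obtain ⟨p1, p2⟩ := pa _ hx0 hxX
    have t3 : 0 < τ ^ 3 := by positivity
    rw [show (τ - τ / 200) ^ 3 = (199 / 200) ^ 3 * τ ^ 3 by ring, abs_le] at b0
    have v1 : τ ^ 3 / 4 ≤ VV α w 0 t (τ / 200) := by linarith [b0.1]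
    have v2 : VV α w 0 t (τ / 200) ≤ 3 / 4 * τ ^ 3 := by linarith [b0.2]
    constructor
    · nlinarith
    · rw [mul_comm]
      exact mul_le_mul v2 p2 (by linarith) (by positivity)

end

end Crest.Agent.N207.S.Out
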