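import Crest.Agent.N207.S.Out.Src
import Crest.Agent.N207.S.Out.Ob

/-!
Row 207 (S0320), block OUTER: smallness conditions, sizes, the barrier.
-/

set_option autoImplicit false

open Set Filter
open scoped Topology

namespace Crest.Agent.N207.S.Out

noncomputable section

/-- smallness of `X` and `τ₁` -/
structure Sm (C K X τ1 : ℝ) : Prop where
  hC : 1 ≤ C
  hK : K = 46080 * (C + 1)
  X0 : 0 < X
  X1 : X ≤ (1 / 10 ^ 4) ^ 20
  X2 : X ≤ (1 / (K * 200 ^ 63)) ^ 20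
  src : ∀ (e α xs x : ℝ) (w W k : ℕ → ℝ → ℝ),
    0 < e → e ≤ 1 / 2 → -1 ≤ α → α ≤ 0 → IsSeq (Ioo 0 xs) w → IsSeq (Ioo 0 xs) W →
    IsSeq (Ioo 0 xs) k → (∀ y ∈ Ioo 0 xs, 0 < w 0 y) → (∀ y, W 0 y = w 0 y - y) →
    (∀ y, W 40 y = w 40 y) → 0 < x → x ≤ X → x < xs →
    (∀ y ∈ Icc (x / 2) x, (∀ j ≤ 40, |w (j + 1) y| * y ^ j ≤ C ∧ |k j y| * y ^ (j + 1) ≤ C) ∧
      |w 0 y - y| ≤ C * y ^ (11 / 4 : ℝ) ∧
      |1 - y * k 0 y - 1 / (1 + 2 * e)| ≤ C * y ^ (3 / 4 : ℝ)) →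
    Sz 4 (x ^ (21 / 10 : ℝ)) (pr (pw (-α)) (ES e w W k)) x
  τ0 : 0 < τ1
  τa : τ1 ≤ X
  τb : τ1 * (1000 * (1 + 3 * K)) ≤ X ^ 4

theorem exists_sm (C : ℝ) (hC : 1 ≤ C) : ∃ K X0 : ℝ, 0 < X0 ∧ ∀ X : ℝ, 0 < X → X ≤ X0 →
    ∃ τ1, Sm C K X τ1 := by
  obtain ⟨X1, h1, h⟩ := src C hC
  obtain ⟨K, hK⟩ : ∃ K : ℝ, K = 46080 * (C + 1) := ⟨_, rfl⟩
  have hK0 : 0 < K := by rw [hK]; positivity
  refine ⟨K, min X1 (min ((1 / 10 ^ 4) ^ 20) ((1 / (K * 200 ^ 63)) ^ 20)), by positivity,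
    fun X a b => ⟨min X (X ^ 4 / (1000 * (1 + 3 * K))), hC, hK, a,
      b.trans ((min_le_right _ _).trans (min_le_left _ _)),
      b.trans ((min_le_right _ _).trans (min_le_right _ _)), ?_, by positivity, min_le_left _ _,
      ?_⟩⟩
  · intro e α xs x w W k a1 a2 a3 a4 a5 a6 a7 a8 a9 a10 a11 a12
    exact h e α xs x w W k a1 a2 a3 a4 a5 a6 a7 a8 a9 a10 a11
      (a12.trans (b.trans (min_le_left _ _)))
  · rw [← le_div_iff₀ (by positivity)]; exact min_le_right _ _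

theorem lfacts {τ : ℝ} (h0 : 0 < τ) (h1 : τ ≤ (1 / 10 ^ 4) ^ 20) :
    0 < τ ^ (21 / 20 : ℝ) ∧ τ ^ (21 / 20 : ℝ) ≤ τ / 200 ∧ (τ ^ (21 / 20 : ℝ)) ^ 60 = τ ^ 63 := by
  obtain ⟨s, s0, s1, hs, hp⟩ := root20 h0 h1
  rw [(hp (21 / 20) 21 (by norm_num)).1, hs]
  refine ⟨by positivity, ?_, by ring⟩
  have : 0 < s ^ 20 := by positivity
  rw [pow_succ]; nlinarith

variable {C K X τ1 e d α t0 t1 xs t T x : ℝ} {w wt k kt : ℕ → ℝ → ℝ → ℝ}

theorem Sm.K1 (h : Sm C K X τ1) : 1 ≤ K := by rw [h.hK]; linarith [h.hC]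

theorem Sm.le1 (h : Sm C K X τ1) : X ≤ 1 := h.X1.trans (by norm_num)

theorem Sm.szV (h : Sm C K X τ1) (hp : Par e d α) (hI : In C e T X w k t)
    (hτ : 0 < T - t) (hx : x ∈ Icc ((T - t) ^ (21 / 20 : ℝ)) X) :
    Sz 6 (K * x) (fun j => VV α w j t) x := by
  have hl : 0 < (T - t) ^ (21 / 20 : ℝ) := by positivity
  have hx0 : 0 < x := hl.trans_le hx.1
  have x1 : x ≤ 1 := hx.2.trans h.le1
  have hC := h.hC
  obtain ⟨a, b, -⟩ := hI x ⟨by linarith [hx.1], hx.2⟩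
  have hW : Sz 6 ((C + 1) * x) (fun j => WS w j t) x := by
    intro j hj
    rcases j with _ | _ | j
    · have : x ^ (11 / 4 : ℝ) ≤ x ^ (1 : ℝ) := Real.rpow_le_rpow_of_exponent_ge hx0 x1 (by norm_num)
      rw [Real.rpow_one] at this
      simp only [WS_zero, pow_zero, mul_one]
      nlinarith
    · have := (a 0 (by norm_num)).1
      have t := abs_sub (w 1 t x) 1
      simp only [zero_add, WS_one, pow_zero, mul_one, pow_one, abs_one] at this t ⊢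
      nlinarith
    · have := (a (j + 1) (by omega)).1
      simp only [WS_high, show j + 1 + 1 = j + 2 from rfl] at this ⊢
      rw [pow_succ, ← mul_assoc]
      nlinarith
  have pa := sz_pw (p := -α) (by rw [abs_le]; constructor <;> linarith [hp.α0, hp.α1, hp.d1]) hx0 6
  have pa1 : x ^ (-α) ≤ 1 := Real.rpow_le_one hx0.le x1 (by linarith [hp.α1])
  norm_num [Nat.factorial] at pa
  refine ((pa.le (show _ ≤ 720 by linarith)).pr hx0 hW).le (le_of_eq ?_)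
  rw [h.hK]; ring

theorem Sm.szF (h : Sm C K X τ1) (hp : Par e d α) (hs : XSol e t0 t1 xs w wt k kt) (hX : X < xs)
    (ht : t ∈ Icc t0 t1) (hI : In C e T X w k t) (hτ : 0 < T - t)
    (hx : x ∈ Icc ((T - t) ^ (21 / 20 : ℝ)) X) :
    Sz 4 (x ^ (21 / 10 : ℝ)) (fun j => FF d α w wt j t) x := by
  have hl : 0 < (T - t) ^ (21 / 20 : ℝ) := by positivity
  have hx0 : 0 < x := hl.trans_le hx.1
  refine (h.src e α xs x (fun i => w i t) (fun i => WS w i t) (fun i => k i t) hp.e0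
    (hp.e1.trans (by norm_num)) (by linarith [hp.α0, hp.d1]) hp.α1 (isSeq_u hs.jw ht)
    (isSeq_W hs.jw ht) (isSeq_u hs.jk ht) (fun y hy => hs.pos t y ht (Ioo_subset_Icc_self hy))
    (WS_zero w t) (WS_high w 38 t) hx0 hx.2 (hx.2.trans_lt hX) fun y hy =>
      hI y ⟨by linarith [hx.1, hy.1], hy.2.trans hx.2⟩).congr
    (F_eq hp hs ht ⟨hx0, hx.2.trans_lt hX⟩)

theorem Par.bb (hp : Par e d α) {j : ℕ} (hj : j ≤ 4) :
    |1 - d + 2 * d * α + j * d - 1| ≤ 1 / 10 ^ 5 := by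
  have : (j : ℝ) ≤ 4 := by exact_mod_cast hj
  have h0 : (0 : ℝ) ≤ j := Nat.cast_nonneg j
  have := hp.d0
  have := hp.d1
  have := hp.α0
  have := hp.α1
  rw [abs_le]; constructor <;> nlinarith

theorem Sm.timeX (h : Sm C K X τ1) (hp : Par e d α) (hs : XSol e t0 t1 xs w wt k kt)
    (hX : X < xs) (ht : t ∈ Icc t0 t1) (hT : t < T) (hτ : T - t0 ≤ τ1)
    (hI : ∀ s ∈ Icc t0 t, In C e T X w k s) {j : ℕ} (hj : j ≤ 4) :
    |VV α w j t X - VV α w j t0 X| ≤ 1 / 1000 := by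
  have hX0 := h.X0
  have K1 := h.K1
  have hsub : Icc t0 t ⊆ Icc t0 t1 := Icc_subset_Icc le_rfl ht.2
  have key := (convex_Icc t0 t).norm_image_sub_le_of_norm_hasDerivWithin_le
    (f := fun s => VV α w j s X) (f' := fun s => VT α wt j s X) (C := (1 + 3 * K) / X ^ 4)
    (fun s hs' => (dt_V hs.jw (hsub hs') ⟨hX0, hX⟩ j).mono hsub) (fun s hs' => by
      have a : 0 < T - s := by linarith [hs'.2]
      have a' : T - s ≤ X := by linarith [hs'.1, h.τa]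
      have b : X ∈ Icc ((T - s) ^ (21 / 20 : ℝ)) X :=
        ⟨(lfacts a (a'.trans h.X1)).2.1.trans (by linarith), le_rfl⟩
      have f1 := h.szF hp hs hX (hsub hs') (hI s hs') a b j hj
      have f1' : X ^ (21 / 10 : ℝ) ≤ 1 := Real.rpow_le_one hX0.le h.le1 (by norm_num)
      have v1 := h.szV hp (hI s hs') a b (j + 1) (by omega)
      have v2 := h.szV hp (hI s hs') a b (j + 2) (by omega)
      have pj := pow_pos hX0 j
      have v1' : |VV α w (j + 1) s X| * X ^ j ≤ K := by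
        rw [pow_succ, ← mul_assoc] at v1; exact le_of_mul_le_mul_right v1 hX0
      have v2' : X * |VV α w (j + 2) s X| * X ^ j ≤ K := by
        refine le_of_mul_le_mul_right (le_of_eq_of_le ?_ v2) hX0
        ring
      obtain ⟨β, hβ⟩ : ∃ β, β = 1 - d + 2 * d * α + j * d := ⟨_, rfl⟩
      have hb := hp.bb hj
      have e : VT α wt j s X = FF d α w wt j s X +
          (d * X * VV α w (j + 2) s X + β * VV α w (j + 1) s X) := by rw [FF, hβ]; ring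
      rw [← hβ] at hb
      have hβ2 : |β| ≤ 2 := by rw [abs_le] at hb ⊢; constructor <;> linarith [hb.1, hb.2]
      have t1 := abs_add_le (FF d α w wt j s X)
        (d * X * VV α w (j + 2) s X + β * VV α w (j + 1) s X)
      have t2 := abs_add_le (d * X * VV α w (j + 2) s X) (β * VV α w (j + 1) s X)
      rw [abs_mul, abs_mul, abs_mul, abs_of_pos hp.d0, abs_of_pos hX0] at t2
      have t3 : |VT α wt j s X| ≤ |FF d α w wt j s X| + X * |VV α w (j + 2) s X| +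
          2 * |VV α w (j + 1) s X| := by
        have d1 : d ≤ 1 := hp.d1.trans (by norm_num)
        have q1 := mul_le_mul_of_nonneg_right d1
          (mul_nonneg hX0.le (abs_nonneg (VV α w (j + 2) s X)))
        have q2 := mul_le_mul_of_nonneg_right hβ2 (abs_nonneg (VV α w (j + 1) s X))
        rw [e]; linarith
      have t4 := mul_le_mul_of_nonneg_right t3 pj.le
      have t5 := mul_le_mul_of_nonneg_left (pow_le_pow_of_le_one hX0.le h.le1 hj)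
        (abs_nonneg (VT α wt j s X))
      rw [Real.norm_eq_abs, le_div_iff₀ (by positivity)]
      linarith) (left_mem_Icc.2 ht.1) (right_mem_Icc.2 ht.1)
  rw [Real.norm_eq_abs, Real.norm_eq_abs, abs_of_nonneg (sub_nonneg.2 ht.1)] at key
  refine key.trans ?_
  rw [div_mul_eq_mul_div, div_le_iff₀ (by positivity)]
  have : t - t0 ≤ τ1 := by linarith
  nlinarith [h.τb]

/-- jets of the barrier -/
def Bb (K T : ℝ) (j : ℕ) (t x : ℝ) : ℝ :=
  pw (-(19 / 20)) j x + K * (T - t) ^ 63 * pw (-63) j x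

theorem pw63 (hx : 0 < x) : x ^ (-63 : ℝ) = (x ^ 63)⁻¹ := by
  rw [Real.rpow_neg hx.le]; norm_cast

theorem Bb_zero (K T t : ℝ) (hx : 0 < x) :
    Bb K T 0 t x = x ^ (-(19 / 20) : ℝ) + K * ((T - t) / x) ^ 63 := by
  rw [Bb, pw_zero, pw_zero, pw63 hx, div_pow]; ring

theorem Sm.big (h : Sm C K X τ1) (hx : 0 < x) (hx1 : x ≤ X) :
    K * 200 ^ 63 ≤ x ^ (-(19 / 20) : ℝ) ∧ x ^ (21 / 10 : ℝ) ≤ x ^ (-(19 / 20) : ℝ) * x ^ 3 / 10 := by
  obtain ⟨s, s0, s1, hs, hp⟩ := root20 hx (hx1.trans h.X1)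
  have K1 := h.K1
  obtain ⟨N, hN⟩ : ∃ N : ℝ, N = K * 200 ^ 63 := ⟨_, rfl⟩
  have hN0 : 0 < N := by rw [hN]; positivity
  have s2 : s ≤ 1 / N := by
    have := hx1.trans h.X2
    rw [hs, ← hN] at this
    exact le_of_pow_le_pow_left₀ (by norm_num) (by positivity) this
  rw [(hp (19 / 20) 19 (by norm_num)).2, (hp (21 / 10) 42 (by norm_num)).1, ← hN]
  constructor
  · rw [le_inv_comm₀ hN0 (by positivity), inv_eq_one_div]
    refine le_trans ?_ s2
    rw [pow_succ]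
    exact mul_le_of_le_one_left s0.le (pow_le_one₀ s0.le (s1.trans (by norm_num)))
  · have e : (s ^ 19)⁻¹ * x ^ 3 = s ^ 41 := by rw [hs]; field_simp
    have : 0 < s ^ 41 := by positivity
    rw [e, pow_succ]; nlinarith

theorem bar_alg {a hh g f β d x : ℝ} (hx : 0 < x) (ha : 0 < a) (hh0 : 0 ≤ hh) (d0 : 0 ≤ d)
    (d1 : d ≤ 2 / 10 ^ 6) (hβ : |β - 1| ≤ 1 / 10 ^ 5) (hf : f * x ≤ a / 10)
    (hg : g * x ≤ 32 * hh + a / 2) {v5 v6 : ℝ}
    (e5 : v5 = -(19 / 20) * a / x + -63 * hh / x)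
    (e6 : v6 ≤ -(19 / 20) * (-(19 / 20) - 1) * a / x ^ 2 + -63 * (-63 - 1) * hh / x ^ 2)
    (ht : 0 ≤ f + (d * x * v6 + β * v5) + g) : False := by
  have b6 : x ^ 2 * v6 ≤ 2 * a + 4032 * hh := by
    have := mul_le_mul_of_nonneg_left e6 (pow_pos hx 2).le
    have e : x ^ 2 * (-(19 / 20) * (-(19 / 20) - 1) * a / x ^ 2 + -63 * (-63 - 1) * hh / x ^ 2) =
        19 / 20 * (39 / 20) * a + 4032 * hh := by field_simp; ring
    linarith
  have b5 : x * v5 = -(19 / 20 * a + 63 * hh) := by rw [e5]; field_simp; ring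
  have h1 := mul_nonneg ht hx.le
  have e : (f + (d * x * v6 + β * v5) + g) * x = f * x + d * (x ^ 2 * v6) + β * (x * v5) + g * x := by
    ring
  rw [e, b5] at h1
  have q1 := mul_le_mul_of_nonneg_left b6 d0
  have q2 := mul_le_mul_of_nonneg_right d1 (show 0 ≤ 2 * a + 4032 * hh by positivity)
  have q3 := mul_le_mul_of_nonneg_right (abs_le.1 hβ).1
    (show 0 ≤ 19 / 20 * a + 63 * hh by positivity)
  nlinarith

end

end Crest.Agent.N207.S.Out
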