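import Crest.Agent.N207.S.Out.Ob
import Crest.Agent.N207.S.Out.Lan

/-!
Row 207 (S0320), block OUTER: the initial data satisfy `Dat` and the face conditions.
-/

set_option autoImplicit false

open Set Filter
open scoped Topology

namespace Crest.Agent.N207.S.Out

noncomputable section

/-- the cubic of the data -/
def Qd (T : ℝ) (a : Fin 3 → ℝ) (x : ℝ) : ℝ :=
  (T - x) ^ 3 / 2 + 1 / 50 * (a 0 * T ^ 3 + a 1 * T ^ 2 * (x - T) + a 2 * T * (x - T) ^ 2 / 2)

/-- jets of the cubic -/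
def QS (T : ℝ) (a : Fin 3 → ℝ) : ℕ → ℝ → ℝ
  | 0 => Qd T a
  | 1 => fun x => -(3 / 2) * (T - x) ^ 2 + 1 / 50 * (a 1 * T ^ 2 + a 2 * T * (x - T))
  | 2 => fun x => 3 * (T - x) + 1 / 50 * (a 2 * T)
  | 3 => fun _ => -3
  | _ + 4 => fun _ => 0

/-- jets of `(x + om) ^ α - x ^ α` -/
def DS (α om : ℝ) : ℕ → ℝ → ℝ := fun j x => pw α j (x + om) - pw α j x

variable {T x M α om : ℝ} {a : Fin 3 → ℝ} {U : Set ℝ}

theorem isSeq_QS (T : ℝ) (a : Fin 3 → ℝ) (U : Set ℝ) : IsSeq U (QS T a) := by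
  intro j x _
  have h1 := (hasDerivAt_id x).const_sub T
  have h2 := (hasDerivAt_id x).sub_const T
  rcases j with _ | _ | _ | _ | j
  · refine HasDerivAt.congr_deriv (((h1.pow 3).div_const 2).add
      ((((h2.const_mul (a 1 * T ^ 2)).const_add (a 0 * T ^ 3)).add
        (((h2.pow 2).const_mul (a 2 * T)).div_const 2)).const_mul (1 / 50))) ?_
    simp only [QS, id]
    push_cast
    ring
  · refine HasDerivAt.congr_deriv (((h1.pow 2).const_mul (-(3 / 2))).add
      (((h2.const_mul (a 2 * T)).const_add (a 1 * T ^ 2)).const_mul (1 / 50))) ?_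
    simp only [QS, id]
    push_cast
    ring
  · refine HasDerivAt.congr_deriv ((h1.const_mul 3).add_const (1 / 50 * (a 2 * T))) ?_
    simp only [QS]
    ring
  · exact hasDerivAt_const x _
  · exact hasDerivAt_const x _

theorem sz_QS (ha : ∀ j, |a j| ≤ 1) (hT : 0 ≤ T) (hx : 0 < x) (hxM : x ≤ M) (hTM : T ≤ M)
    (m : ℕ) : Sz m (24 * M ^ 3) (QS T a) x := by
  have M0 : 0 < M := hx.trans_le hxM
  have hd : |T - x| ≤ M := by rw [abs_le]; constructor <;> linarith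
  have hd' : |x - T| ≤ M := by rwa [abs_sub_comm]
  have hT' : |T| ≤ M := by rwa [abs_of_nonneg hT]
  have p : ∀ {u : ℝ} (n : ℕ), |u| ≤ M → |u ^ n| ≤ M ^ n := fun n h => by
    rw [abs_pow]; exact pow_le_pow_left₀ (abs_nonneg _) h n
  have ml : ∀ {u v A B : ℝ}, |u| ≤ A → |v| ≤ B → |u * v| ≤ A * B := fun h1 h2 => by
    rw [abs_mul]; exact mul_le_mul h1 h2 (abs_nonneg _) ((abs_nonneg _).trans h1)
  have M3 := pow_pos M0 3
  intro j _
  rcases j with _ | _ | _ | _ | j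
  · have b1 := abs_le.1 (p 3 hd)
    have b2 := abs_le.1 (ml (ha 0) (p 3 hT'))
    have b3 := abs_le.1 (ml (ml (ha 1) (p 2 hT')) hd')
    have b4 := abs_le.1 (ml (ml (ha 2) hT') (p 2 hd'))
    simp only [QS, Qd, pow_zero, mul_one]
    rw [abs_le]; constructor <;> linarith [b1.1, b1.2, b2.1, b2.2, b3.1, b3.2, b4.1, b4.2]
  · have b1 := abs_le.1 (p 2 hd)
    have b2 := abs_le.1 (ml (ha 1) (p 2 hT'))
    have b3 := abs_le.1 (ml (ml (ha 2) hT') hd')
    have : |QS T a (0 + 1) x| ≤ 2 * M ^ 2 := by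
      have := pow_pos M0 2
      simp only [QS]
      rw [abs_le]; constructor <;> linarith [b1.1, b1.2, b2.1, b2.2, b3.1, b3.2]
    refine (mul_le_mul this (pow_le_pow_left₀ hx.le hxM _) (by positivity)
      (by positivity)).trans ?_
    norm_num only
    linarith
  · have b1 := abs_le.1 hd
    have b2 := abs_le.1 (ml (ha 2) hT')
    have : |QS T a (0 + 1 + 1) x| ≤ 4 * M := by
      simp only [QS]
      rw [abs_le]; constructor <;> linarith [b1.1, b1.2, b2.1, b2.2]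
    refine (mul_le_mul this (pow_le_pow_left₀ hx.le hxM _) (by positivity)
      (by positivity)).trans ?_
    norm_num only
    linarith
  · have := pow_le_pow_left₀ hx.le hxM 3
    simp only [QS]
    norm_num
    linarith
  · simp only [QS, abs_zero, zero_mul]
    positivity

theorem isSeq_DS (α : ℝ) (hom : 0 ≤ om) (hU : U ⊆ Ioi 0) : IsSeq U (DS α om) := fun j x hx =>
  ((isSeq_pw α subset_rfl j (x + om) (add_pos_of_pos_of_nonneg (hU hx) hom)).comp_add_const
    x om).sub (isSeq_pw α hU j x hx)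

theorem sz_DS (h0 : -1 ≤ α) (h1 : α ≤ 0) (hom : 0 ≤ om) (hx : 0 < x) :
    Sz 4 (120 * x ^ α * om / x) (DS α om) x := by
  intro j hj
  have a := abs_sub_le_of_deriv (u := pw α j) (u' := pw α (j + 1)) (a := x) (b := x + om)
    (B := |pw α (j + 1) x|) (fun s hs => isSeq_pw α subset_rfl j s (hx.trans_le hs.1))
    (fun s hs => by
      simp only [pw, abs_mul]
      rw [abs_of_pos (Real.rpow_pos_of_pos hx _),
        abs_of_pos (Real.rpow_pos_of_pos (hx.trans_le hs.1) _)]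
      refine mul_le_mul_of_nonneg_left (Real.rpow_le_rpow_of_nonpos hx hs.1 ?_) (abs_nonneg _)
      have : (0 : ℝ) ≤ ((j + 1 : ℕ) : ℝ) := Nat.cast_nonneg _
      linarith) (y := x) (z := x + om) ⟨le_rfl, by linarith⟩ ⟨by linarith, le_rfl⟩
  rw [add_sub_cancel_left, abs_of_nonneg hom] at a
  have b := sz_pw (p := α) (abs_le.2 ⟨h0, by linarith⟩) hx 5 (j + 1) (by omega)
  norm_num [Nat.factorial] at b
  rw [le_div_iff₀ hx, mul_assoc, ← pow_succ]
  refine (mul_le_mul_of_nonneg_right a (pow_pos hx _).le).trans ?_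
  have := mul_le_mul_of_nonneg_right b hom
  linarith

theorem data_out {X : ℝ} (hX : 0 < X) : ∃ T0 : ℝ, 0 < T0 ∧
    ∀ (e d α T : ℝ) (a : Fin 3 → ℝ) (w : ℕ → ℝ → ℝ → ℝ), Par e d α → 0 < T → T ≤ T0 →
      (∀ j, |a j| ≤ 1) → IsSeq (Ioo 0 (2 * X)) (fun j => w j 0) →
      (∀ x ∈ Ioo 0 (2 * X), w 0 0 x = x + (x + T ^ (14 / 5 : ℝ)) ^ α * Qd T a x) →
      Dat α T X w 0 ∧ ∀ j : Fin 3, |nn α T w j 0 - a j / 50| < 1 / 100 := by
  refine ⟨min (X / 400) ((1 / 10 ^ 4) ^ 20), by positivity,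
    fun e d α T a w hp T0 T1 ha hw h0 => ?_⟩
  have TX : T ≤ X / 400 := T1.trans (min_le_left _ _)
  have T2 := T1.trans (min_le_right _ _)
  have T3 : T ≤ 1 / 1000 := T2.trans (by norm_num)
  obtain ⟨om, hom⟩ : ∃ om, om = T ^ (14 / 5 : ℝ) := ⟨_, rfl⟩
  have om0 : 0 ≤ om := by rw [hom]; positivity
  have om1 : 17694720 * om ≤ T ^ 2 := by
    obtain ⟨s, s0, s1, hs, hpw⟩ := root20 T0 T2
    rw [hom, (hpw (14 / 5) 56 (by norm_num)).1, hs]
    have e : (s ^ 20) ^ 2 = s ^ 40 := by ring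
    have e2 : s ^ 56 = s ^ 16 * s ^ 40 := by ring
    have := pow_le_pow_left₀ s0.le s1 16
    have := pow_pos s0 40
    rw [e, e2]
    nlinarith
  rw [← hom] at h0
  have α0 : -1 ≤ α := by linarith [hp.α0, hp.d1]
  obtain ⟨R, hR⟩ : ∃ R, R = pr (pr (pw (-α)) (DS α om)) (QS T a) := ⟨_, rfl⟩
  have hV : ∀ j, ∀ x ∈ Ioo 0 (2 * X), VV α w j 0 x = QS T a j x + R j x := by
    rw [hR]
    refine IsSeq.unique (f := pr (pw (-α)) fun j x => w j 0 x - pw 1 j x) isOpen_Ioo ((isSeq_pw (-α) sub0).pr (hw.sub (isSeq_pw 1 sub0)))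
      ((isSeq_QS T a _).add (((isSeq_pw (-α) sub0).pr (isSeq_DS α om0 sub0)).pr
        (isSeq_QS T a _))) fun y hy => ?_
    have : y ^ (-α) * y ^ α = 1 := by rw [← Real.rpow_add hy.1]; simp
    simp only [pr_zero, pw_zero, h0 y hy, DS, QS, Real.rpow_one]
    linear_combination Qd T a y * this
  have hS : ∀ x M, 0 < x → x ≤ M → T ≤ M → Sz 4 (T ^ 2 * M ^ 3 / x) R x := fun x M x0 b c => by
    rw [hR]
    refine (((sz_pw (p := -α) (abs_le.2 ⟨by linarith [hp.α1], by linarith⟩) x0 4).pr x0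
      (sz_DS α0 hp.α1 om0 x0)).pr x0 (sz_QS ha T0.le x0 b c 4)).le ?_
    have : x ^ (-α) * x ^ α = 1 := by rw [← Real.rpow_add x0]; simp
    have e : 2 ^ 4 * (2 ^ 4 * (((4 : ℕ).factorial : ℝ) * x ^ (-α)) * (120 * x ^ α * om / x)) *
        (24 * M ^ 3) = 17694720 * om * M ^ 3 / x * (x ^ (-α) * x ^ α) := by
      norm_num [Nat.factorial]; ring
    rw [e, this, mul_one]
    have : 0 < M := x0.trans_le b
    gcongr
  simp only [Dat, nn, sub_zero]
  refine ⟨⟨fun x hx => ?_, ?_⟩, fun j => ?_⟩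
  · have x0 : 0 < x := lt_of_lt_of_le (by positivity) hx.1
    rw [hV 4 x ⟨x0, by linarith [hx.2]⟩, show QS T a 4 x = 0 from rfl, zero_add]
    have q : 0 ≤ (T / x) ^ 63 := by positivity
    rcases le_total T x with c | c
    · have b := hS x x x0 le_rfl c 4 le_rfl
      have e : T ^ 2 * x ^ 3 / x = T ^ 2 * x ^ 2 := by field_simp
      have := mul_le_mul_of_nonneg_right (pow_le_pow_left₀ T0.le c 2) (pow_pos x0 2).le
      have : |R 4 x| ≤ 1 := le_of_mul_le_mul_right (by linarith) (pow_pos x0 4)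
      linarith
    · have b := hS x T x0 c le_rfl 4 le_rfl
      have e : T ^ 2 * T ^ 3 / x = (T / x) ^ 5 * x ^ 4 := by field_simp
      have b2 : |R 4 x| ≤ (T / x) ^ 5 := le_of_mul_le_mul_right (by linarith) (pow_pos x0 4)
      have := pow_le_pow_right₀ ((one_le_div x0).2 c) (show 5 ≤ 63 by norm_num)
      linarith
  · rw [hV 3 X ⟨hX, by linarith⟩, show QS T a 3 X = -3 from rfl, neg_add_cancel_comm]
    have b := hS X X hX le_rfl (by linarith) 3 (by norm_num)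
    have e : T ^ 2 * X ^ 3 / X = T ^ 2 / X * X ^ 3 := by field_simp
    refine (le_of_mul_le_mul_right (e ▸ b) (pow_pos hX 3)).trans ?_
    rw [div_le_iff₀ hX]
    nlinarith
  · have b := hS T T T0 le_rfl le_rfl j (by omega)
    have e : T ^ 2 * T ^ 3 / T = T * T ^ (3 - (j : ℕ)) * T ^ (j : ℕ) := by
      rw [mul_assoc T, ← pow_add T (3 - (j : ℕ)), show 3 - (j : ℕ) + j = 3 by omega]; field_simp
    have b2 := le_of_mul_le_mul_right (e ▸ b) (pow_pos T0 _)
    have p := pow_pos T0 (3 - (j : ℕ))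
    have e2 : QS T a j T = a j / 50 * T ^ (3 - (j : ℕ)) := by
      fin_cases j <;> simp [QS, Qd] <;> ring
    rw [hV j T ⟨T0, by linarith⟩, e2, add_div, mul_div_cancel_right₀ _ p.ne', add_sub_cancel_left,
      abs_div, abs_of_pos p, div_lt_iff₀ p]
    nlinarith

end

end Crest.Agent.N207.S.Out
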