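import Crest.Agent.N207.S.Out.Seq
import Crest.Agent.N207.S.In.Defs

/-!
Row 207 (S0320), block OUTER: definitions and the statement `OuterStmt`.
`T` is the final time, `τ = T - t`, `W = w - x = x ^ α V`.
-/

set_option autoImplicit false

open Set

namespace Crest.Agent.N207.S.Out

noncomputable section

/-- the parameters `d = 2 e z₀` and `α` -/
structure Par (e d α : ℝ) : Prop where
  e0 : 0 < e
  e1 : e ≤ 1 / 10 ^ 6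
  hd : d = 2 * e / (1 + 2 * e)
  hα : d * α ^ 2 + (1 - 2 * d) * α + d = 0
  α0 : -(2 * d) ≤ α
  α1 : α ≤ 0

/-- jets of `W = w - x` at time `t` -/
def WS (w : ℕ → ℝ → ℝ → ℝ) (j : ℕ) (t x : ℝ) : ℝ := w j t x - pw 1 j x

/-- jets of `V = x ^ (-α) W` -/
def VV (α : ℝ) (w : ℕ → ℝ → ℝ → ℝ) (j : ℕ) (t x : ℝ) : ℝ :=
  mulS j (pw (-α)) (fun i => WS w i t) x

/-- time derivatives of the jets of `V` -/
def VT (α : ℝ) (wt : ℕ → ℝ → ℝ → ℝ) (j : ℕ) (t x : ℝ) : ℝ :=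
  mulS j (pw (-α)) (fun i => wt i t) x

/-- jets of the source term: `V_t = d x V'' + b V' + F` -/
def FF (d α : ℝ) (w wt : ℕ → ℝ → ℝ → ℝ) (j : ℕ) (t x : ℝ) : ℝ :=
  VT α wt j t x - (d * x * VV α w (j + 2) t x + (1 - d + 2 * d * α + j * d) * VV α w (j + 1) t x)

/-- the three unstable modes `n_j = V^(j)(τ) / τ^(3-j)` -/
def nn (α T : ℝ) (w : ℕ → ℝ → ℝ → ℝ) (j : ℕ) (t : ℝ) : ℝ :=
  VV α w j t (T - t) / (T - t) ^ (3 - j)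

/-- the modes are in the cube at time `t` -/
def Cube (α T : ℝ) (w : ℕ → ℝ → ℝ → ℝ) (t : ℝ) : Prop := ∀ j < 3, |nn α T w j t| ≤ 1 / 100

/-- what the block needs from the initial data -/
def Dat (α T X : ℝ) (w : ℕ → ℝ → ℝ → ℝ) (t : ℝ) : Prop :=
  (∀ x ∈ Icc ((T - t) ^ (21 / 20 : ℝ)) X, |VV α w 4 t x| ≤ 1 + ((T - t) / x) ^ 63) ∧
    |VV α w 3 t X + 3| ≤ 1 / 400

/-- output of the block at time `t` -/
def Out (T X : ℝ) (w : ℕ → ℝ → ℝ → ℝ) (t : ℝ) : Prop :=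
  (∀ x ∈ Icc ((T - t) / 200) X, |w 0 t x - x| ≤ x ^ (11 / 4 : ℝ) ∧
    |w 1 t x - 1| ≤ x ^ (7 / 4 : ℝ) ∧ |w 2 t x| ≤ x ^ (3 / 4 : ℝ)) ∧
  (T - t) ^ 3 / 4 ≤ w 0 t ((T - t) / 200) - (T - t) / 200 ∧
  w 0 t ((T - t) / 200) - (T - t) / 200 ≤ 3 / 4 * (T - t) ^ 3 * ((T - t) / 200) ^ (-(1 / 10) : ℝ)

/-- input of the block at time `t` (from REG and INNER) -/
def In (C e T X : ℝ) (w k : ℕ → ℝ → ℝ → ℝ) (t : ℝ) : Prop :=
  ∀ x ∈ Icc ((T - t) ^ (21 / 20 : ℝ) / 2) X,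
    (∀ j ≤ 40, |w (j + 1) t x| * x ^ j ≤ C ∧ |k j t x| * x ^ (j + 1) ≤ C) ∧
    |w 0 t x - x| ≤ C * x ^ (11 / 4 : ℝ) ∧
    |1 - x * k 0 t x - 1 / (1 + 2 * e)| ≤ C * x ^ (3 / 4 : ℝ)

/-- **Block OUTER**: as long as the modes stay in the cube the outer estimates hold, and the
modes leave the cube transversally. -/
def OuterStmt : Prop :=
  ∀ C : ℝ, 1 ≤ C → ∃ X0 : ℝ, 0 < X0 ∧ ∀ X : ℝ, 0 < X → X ≤ X0 → ∃ τ1 : ℝ, 0 < τ1 ∧ τ1 ≤ X ∧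
    ∀ (e d α t0 t t' T xs : ℝ) (w wt k kt : ℕ → ℝ → ℝ → ℝ), Par e d α → X < xs →
      XSol e t0 t' xs w wt k kt → t0 ≤ t → t ≤ t' → t' < T → T - t0 ≤ τ1 → Dat α T X w t0 →
      (∀ s ∈ Icc t0 t, Cube α T w s) →
      (∀ u ∈ Icc t0 t, (∀ s ∈ Icc t0 u, Out T X w s) → ∀ s ∈ Icc t0 u, In C e T X w k s) →
      (∀ s ∈ Icc t0 t, Out T X w s) ∧
      (t < t' → ∀ j < 3, |nn α T w j t| = 1 / 100 →
        ∃ s, t < s ∧ s ≤ t' ∧ 1 / 100 < |nn α T w j s|)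

theorem exists_par {e : ℝ} (e0 : 0 < e) (e1 : e ≤ 1 / 10 ^ 6) :
    ∃ α, Par e (2 * e / (1 + 2 * e)) α := by
  obtain ⟨d, hd⟩ : ∃ d, d = 2 * e / (1 + 2 * e) := ⟨_, rfl⟩
  have d0 : 0 < d := by rw [hd]; positivity
  have d1 : d ≤ 1 / 10 := by rw [hd, div_le_iff₀ (by positivity)]; nlinarith
  have hc : ContinuousOn (fun α : ℝ => d * α ^ 2 + (1 - 2 * d) * α + d) (Icc (-(2 * d)) 0) := by
    fun_prop
  obtain ⟨α, hα, h⟩ := intermediate_value_Icc (by linarith) hc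
    (show (0 : ℝ) ∈ Icc _ _ from ⟨by nlinarith [mul_pos d0 d0], by simpa using d0.le⟩)
  rw [← hd]
  exact ⟨α, e0, e1, hd, h, hα.1, hα.2⟩

theorem Par.d0 {e d α : ℝ} (h : Par e d α) : 0 < d := by
  have := h.e0
  rw [h.hd]; positivity

theorem Par.d1 {e d α : ℝ} (h : Par e d α) : d ≤ 2 / 10 ^ 6 := by
  have := h.e0
  have := h.e1
  rw [h.hd, div_le_iff₀ (by positivity)]; nlinarith

end

end Crest.Agent.N207.S.Out
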