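import Mathlib
import Crest.Agent.R202.Miranda

/-!
Row 207 (S0320), block OUTER: the abstract shooting (exit) lemma.
-/

set_option autoImplicit false

open Set Filter
open scoped Topology

namespace Crest.Agent.N207.S.Out

/-- the parameter cube -/
def cube (ι : Type) : Set (ι → ℝ) := Set.pi Set.univ fun _ => Set.Icc (-1 : ℝ) 1

/-- the data of a shooting argument -/
structure Shoot {ι : Type} {P : Type} [TopologicalSpace P] (c : (ι → ℝ) → P) (T η : ℝ)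
    (D : Set (P × ℝ)) (n : P → ℝ → ι → ℝ) : Prop where
  hT : 0 < T
  hη : 0 < η
  hc : ContinuousOn c (cube ι)
  zero_mem : ∀ p, (p, (0 : ℝ)) ∈ D
  down : ∀ p t s, (p, t) ∈ D → 0 ≤ s → s ≤ t → (p, s) ∈ D
  opn : ∀ y ∈ D, ∀ᶠ z in 𝓝 y, 0 ≤ z.2 → z ∈ D
  cont : ∀ j, ContinuousOn (fun y : P × ℝ => n y.1 y.2 j) (D ∩ {y | 0 ≤ y.2 ∧ y.2 < T})
  extend : ∀ p t, 0 < t → t < T → (∀ s, 0 ≤ s → s < t → (p, s) ∈ D ∧ ∀ j, |n p s j| ≤ η) →
    (p, t) ∈ D
  trans : ∀ p t t', 0 ≤ t → t < t' → t' < T → (p, t') ∈ D →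
    (∀ s, 0 ≤ s → s ≤ t → ∀ j, |n p s j| ≤ η) → ∀ j, |n p t j| = η →
    ∃ s, t < s ∧ s ≤ t' ∧ η < |n p s j|
  face1 : ∀ a ∈ cube ι, ∀ j, a j = 1 → η < n (c a) 0 j
  face0 : ∀ a ∈ cube ι, ∀ j, a j = -1 → n (c a) 0 j < -η

section
variable {ι : Type} [Fintype ι] {P : Type} [TopologicalSpace P] {c : (ι → ℝ) → P} {T η : ℝ}
  {D : Set (P × ℝ)} {n : P → ℝ → ι → ℝ}

/-- times at which the boundary of the cube has been reached -/
def bad (T η : ℝ) (D : Set (P × ℝ)) (n : P → ℝ → ι → ℝ) (p : P) : Set ℝ :=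
  {s | 0 ≤ s ∧ s < T ∧ (p, s) ∈ D ∧ ∃ j, η ≤ |n p s j|}

theorem Shoot.ev_in (h : Shoot c T η D n) {p : P} {s : ℝ} (h0 : 0 ≤ s) (h1 : s < T)
    (hD : (p, s) ∈ D) (hn : ∀ j, |n p s j| < η) :
    ∀ᶠ z in 𝓝 (p, s), 0 ≤ z.2 → z ∈ D ∧ z.2 < T ∧ ∀ j, |n z.1 z.2 j| < η := by
  have e1 := h.opn _ hD
  have e2 : ∀ᶠ z : P × ℝ in 𝓝 (p, s), z.2 < T :=
    continuous_snd.continuousAt.eventually (gt_mem_nhds h1)
  have e3 : ∀ j, ∀ᶠ z : P × ℝ in 𝓝 (p, s),
      z ∈ D ∩ {y | 0 ≤ y.2 ∧ y.2 < T} → |n z.1 z.2 j| < η := fun j => by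
    have := ((h.cont j) (p, s) ⟨hD, h0, h1⟩).abs.eventually (gt_mem_nhds (hn j))
    exact eventually_nhdsWithin_iff.1 this
  filter_upwards [e1, e2, eventually_all.2 e3] with z a b d hz
  exact ⟨a hz, b, fun j => d j ⟨a hz, hz, b⟩⟩

theorem Shoot.ev_out (h : Shoot c T η D n) {p : P} {s : ℝ} (h0 : 0 ≤ s) (h1 : s < T)
    (hD : (p, s) ∈ D) {j : ι} (hn : η < |n p s j|) :
    ∀ᶠ q in 𝓝 p, s ∈ bad T η D n q := by
  have e1 := h.opn _ hD
  have e3 : ∀ᶠ z : P × ℝ in 𝓝 (p, s),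
      z ∈ D ∩ {y | 0 ≤ y.2 ∧ y.2 < T} → η < |n z.1 z.2 j| := by
    have := ((h.cont j) (p, s) ⟨hD, h0, h1⟩).abs.eventually (lt_mem_nhds hn)
    exact eventually_nhdsWithin_iff.1 this
  have hc : Tendsto (fun q : P => (q, s)) (𝓝 p) (𝓝 (p, s)) :=
    (continuous_id.prodMk continuous_const).continuousAt
  filter_upwards [hc.eventually e1, hc.eventually e3] with q a b
  exact ⟨h0, h1, a h0, j, (b ⟨a h0, h0, h1⟩).le⟩

theorem Shoot.no_bad (h : Shoot c T η D n) {p : P} {t : ℝ}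
    (hb : ∀ s, s < t → s ∉ bad T η D n p) :
    ∀ s, 0 ≤ s → s < t → s < T → (p, s) ∈ D ∧ ∀ j, |n p s j| < η := by
  by_contra hcon
  push Not at hcon
  set S : Set ℝ := {s | 0 ≤ s ∧ s < t ∧ s < T ∧ ¬ ((p, s) ∈ D ∧ ∀ j, |n p s j| < η)} with hS
  have hne : S.Nonempty := by
    obtain ⟨s, a, b, d, e⟩ := hcon
    refine ⟨s, a, b, d, fun f => ?_⟩
    obtain ⟨j, hj⟩ := e f.1
    exact absurd (f.2 j) (not_lt.2 hj)
  have hbd : BddBelow S := ⟨0, fun s hs => hs.1⟩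
  set s0 := sInf S with hs0
  have h0 : 0 ≤ s0 := le_csInf hne fun s hs => hs.1
  obtain ⟨s1, hs1⟩ := hne
  have hle : s0 ≤ s1 := csInf_le hbd hs1
  have ht : s0 < t := hle.trans_lt hs1.2.1
  have hT : s0 < T := hle.trans_lt hs1.2.2.1
  have hbef : ∀ s, 0 ≤ s → s < s0 → (p, s) ∈ D ∧ ∀ j, |n p s j| < η := by
    intro s a b
    by_contra f
    exact absurd (csInf_le hbd ⟨a, b.trans ht, b.trans hT, f⟩) (not_le.2 b)
  have hD : (p, s0) ∈ D := by
    rcases h0.eq_or_lt with e | e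
    · rw [← e]; exact h.zero_mem p
    · exact h.extend p s0 e hT fun s a b => ⟨(hbef s a b).1, fun j => ((hbef s a b).2 j).le⟩
  have hn : ∀ j, |n p s0 j| < η := fun j => by
    by_contra f
    exact hb s0 ht ⟨h0, hT, hD, j, not_lt.1 f⟩
  have hc : Tendsto (fun s : ℝ => (p, s)) (𝓝 s0) (𝓝 (p, s0)) :=
    (continuous_const.prodMk continuous_id).continuousAt
  obtain ⟨ε, hε, hball⟩ := Metric.eventually_nhds_iff.1 (hc.eventually (h.ev_in h0 hT hD hn))
  have : s0 + ε ≤ s0 := by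
    refine le_csInf ⟨s1, hs1⟩ fun s hs => ?_
    by_contra f
    have f1 : s0 ≤ s := csInf_le hbd hs
    have := hball (y := s) (by rw [Real.dist_eq, abs_lt]; constructor <;> linarith) hs.1
    exact hs.2.2.2 ⟨this.1, this.2.2⟩
  linarith

theorem Shoot.inf_mem (h : Shoot c T η D n) {p : P} (hne : (bad T η D n p).Nonempty) :
    sInf (bad T η D n p) ∈ bad T η D n p := by
  have hbd : BddBelow (bad T η D n p) := ⟨0, fun s hs => hs.1⟩
  set s0 := sInf (bad T η D n p) with hs0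
  have h0 : 0 ≤ s0 := le_csInf hne fun s hs => hs.1
  obtain ⟨s1, hs1⟩ := hne
  have hle : s0 ≤ s1 := csInf_le hbd hs1
  have hT : s0 < T := hle.trans_lt hs1.2.1
  have hD : (p, s0) ∈ D := h.down p s1 s0 hs1.2.2.1 h0 hle
  refine ⟨h0, hT, hD, ?_⟩
  by_contra f
  push Not at f
  have hc : Tendsto (fun s : ℝ => (p, s)) (𝓝 s0) (𝓝 (p, s0)) :=
    (continuous_const.prodMk continuous_id).continuousAt
  obtain ⟨ε, hε, hball⟩ := Metric.eventually_nhds_iff.1 (hc.eventually (h.ev_in h0 hT hD f))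
  have : s0 + ε ≤ s0 := by
    refine le_csInf ⟨s1, hs1⟩ fun s hs => ?_
    by_contra g
    have f1 : s0 ≤ s := csInf_le hbd hs
    have := hball (y := s) (by rw [Real.dist_eq, abs_lt]; constructor <;> linarith) hs.1
    obtain ⟨j, hj⟩ := hs.2.2.2
    exact absurd (this.2.2 j) (not_lt.2 hj)
  linarith

theorem Shoot.cont_inf (h : Shoot c T η D n) (hne : ∀ p, (bad T η D n p).Nonempty) :
    Continuous fun p => sInf (bad T η D n p) := by
  refine continuous_iff_continuousAt.2 fun p => ?_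
  have hbd : ∀ q, BddBelow (bad T η D n q) := fun q => ⟨0, fun s hs => hs.1⟩
  have hm := h.inf_mem (hne p)
  set s0 := sInf (bad T η D n p) with hs0
  have hbef : ∀ s, 0 ≤ s → s < s0 → (p, s) ∈ D ∧ ∀ j, |n p s j| < η := fun s a b =>
    h.no_bad (t := s0) (fun s' b' f => absurd (csInf_le (hbd p) f) (not_le.2 b')) s a b
      (b.trans hm.2.1)
  refine tendsto_order.2 ⟨fun a ha => ?_, fun a ha => ?_⟩
  · rcases lt_or_ge a 0 with a0 | a0
    · exact Eventually.of_forall fun q => a0.trans_le (h.inf_mem (hne q)).1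
    have hK : IsCompact (Icc (0 : ℝ) a) := isCompact_Icc
    have := hK.eventually_forall_of_forall_eventually (x₀ := p)
      (P := fun q s => 0 ≤ s → (q, s) ∈ D ∧ s < T ∧ ∀ j, |n q s j| < η) fun s hs =>
        h.ev_in hs.1 ((hs.2.trans_lt ha).trans hm.2.1) (hbef s hs.1 (hs.2.trans_lt ha)).1
          (hbef s hs.1 (hs.2.trans_lt ha)).2
    filter_upwards [this] with q hq
    by_contra f
    have hq' := h.inf_mem (hne q)
    obtain ⟨j, hj⟩ := hq'.2.2.2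
    exact absurd ((hq _ ⟨hq'.1, not_lt.1 f⟩ hq'.1).2.2 j) (not_lt.2 hj)
  · have key : ∃ s j, 0 ≤ s ∧ s < T ∧ s < a ∧ (p, s) ∈ D ∧ η < |n p s j| := by
      by_cases hgt : ∃ j, η < |n p s0 j|
      · obtain ⟨j, hj⟩ := hgt
        exact ⟨s0, j, hm.1, hm.2.1, ha, hm.2.2.1, hj⟩
      push Not at hgt
      obtain ⟨j, hj⟩ := hm.2.2.2
      have hc : Tendsto (fun s : ℝ => (p, s)) (𝓝 s0) (𝓝 (p, s0)) :=
        (continuous_const.prodMk continuous_id).continuousAt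
      have e1 := hc.eventually (h.opn _ hm.2.2.1)
      have e2 : ∀ᶠ s in 𝓝 s0, s < T := gt_mem_nhds hm.2.1
      have e3 : ∀ᶠ s in 𝓝 s0, s < a := gt_mem_nhds ha
      obtain ⟨t', ⟨⟨b1, b2⟩, b3⟩, b4⟩ :=
        ((((e1.and e2).and e3).filter_mono nhdsWithin_le_nhds).and
          (self_mem_nhdsWithin (s := Ioi s0))).exists
      have b5 : s0 < t' := b4
      have b6 : (p, t') ∈ D := b1 (hm.1.trans b5.le)
      obtain ⟨s, c1, c2, c3⟩ := h.trans p s0 t' hm.1 b5 b2 b6 (fun s a b j => by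
        rcases b.eq_or_lt with e | e
        · rw [e]; exact hgt j
        · exact ((hbef s a e).2 j).le) j (le_antisymm (hgt j) hj)
      have c0 : 0 ≤ s := hm.1.trans c1.le
      exact ⟨s, j, c0, c2.trans_lt b2, c2.trans_lt b3, h.down p t' s b6 c0 c2, c3⟩
    obtain ⟨s, j, a0, a1, a2, a3, a4⟩ := key
    filter_upwards [h.ev_out a0 a1 a3 a4] with q hq
    exact (csInf_le (hbd q) hq).trans_lt a2

/-- **Shooting lemma**: some member of the family stays in the cube on `[0,T)`. -/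
theorem Shoot.exit (h : Shoot c T η D n) :
    ∃ p, ∀ s, 0 ≤ s → s < T → (p, s) ∈ D ∧ ∀ j, |n p s j| < η := by
  by_contra hcon
  have hne : ∀ p, (bad T η D n p).Nonempty := fun p => by
    by_contra f
    exact hcon ⟨p, fun s a b => h.no_bad (t := T) (fun s' _ g => f ⟨s', g⟩) s a b b⟩
  have hbd : ∀ q, BddBelow (bad T η D n q) := fun q => ⟨0, fun s hs => hs.1⟩
  have hc := h.cont_inf hne
  have hz : ∀ q, (0 : ℝ) ∈ bad T η D n q → sInf (bad T η D n q) = 0 := fun q hq =>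
    le_antisymm (csInf_le (hbd q) hq) (h.inf_mem (hne q)).1
  obtain ⟨a, -, ha⟩ := Crest.Agent.R202.poincare_miranda
    (fun a j => n (c a) (sInf (bad T η D n (c a))) j) (by
      refine continuousOn_pi.2 fun j => ?_
      refine (h.cont j).comp (f := fun a => (c a, sInf (bad T η D n (c a))))
        (h.hc.prodMk (hc.comp_continuousOn h.hc)) fun a _ => ?_
      have := h.inf_mem (hne (c a))
      exact ⟨this.2.2.1, this.1, this.2.1⟩)
    (fun a ha j hj => by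
      have f := h.face1 a ha j hj
      have hη := h.hη
      rw [hz _ ⟨le_rfl, h.hT, h.zero_mem _, j, f.le.trans (le_abs_self _)⟩]
      linarith)
    (fun a ha j hj => by
      have f := h.face0 a ha j hj
      have hη := h.hη
      rw [hz _ ⟨le_rfl, h.hT, h.zero_mem _, j, by linarith [neg_abs_le (n (c a) 0 j)]⟩]
      linarith)
  obtain ⟨j, hj⟩ := (h.inf_mem (hne (c a))).2.2.2
  have := ha j
  rw [this, abs_zero] at hj
  exact absurd h.hη (not_lt.2 hj)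

end

end Crest.Agent.N207.S.Out
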