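import Crest.Agent.N207.S.Out.Bar
import Crest.Agent.N207.S.MP

/-!
Row 207 (S0320), block OUTER: the maximum principle for `V''''`.
-/

set_option autoImplicit false

open Set Filter
open scoped Topology

namespace Crest.Agent.N207.S.Out

noncomputable section

variable {C K X τ1 e d α t0 t1 xs t T x : ℝ} {w wt k kt : ℕ → ℝ → ℝ → ℝ}

/-- the barrier inequalities at time `t` -/
def Br (K α T X : ℝ) (w : ℕ → ℝ → ℝ → ℝ) (t : ℝ) : Prop :=
  (∀ x ∈ Icc ((T - t) ^ (21 / 20 : ℝ)) X, |VV α w 4 t x| ≤ Bb K T 0 t x) ∧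
    |VV α w 3 t X + 3| ≤ 1 / 200

theorem Sm.of_br (h : Sm C K X τ1) (hp : Par e d α) (hs : Jet t0 t1 xs w wt) (hX : X < xs)
    (ht : t ∈ Icc t0 t1) (hτ : 0 < T - t) (hτX : T - t ≤ X) (hb : Br K α T X w t)
    (hc : Cube α T w t) :
    (∀ y ∈ Icc ((T - t) / 200) X, |VV α w 4 t y| ≤ 2 * y ^ (-(19 / 20) : ℝ)) ∧
    (∀ y ∈ Icc ((T - t) / 200) X, |VV α w 3 t y + 3| ≤ 1 / 100) ∧ Out T X w t := by
  have hl := (lfacts hτ (hτX.trans h.X1)).2.1
  have h4 : ∀ y ∈ Icc ((T - t) / 200) X, |VV α w 4 t y| ≤ 2 * y ^ (-(19 / 20) : ℝ) := by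
    intro y hy
    have y0 : 0 < y := lt_of_lt_of_le (by positivity) hy.1
    have a := hb.1 y ⟨hl.trans hy.1, hy.2⟩
    rw [Bb_zero _ _ _ y0] at a
    have b := (h.big y0 hy.2).1
    have c : ((T - t) / y) ^ 63 ≤ 200 ^ 63 :=
      pow_le_pow_left₀ (by positivity) (by rw [div_le_iff₀ y0]; linarith [hy.1]) _
    have := mul_le_mul_of_nonneg_left c (zero_le_one.trans h.K1)
    linarith
  have h3 : ∀ y ∈ Icc ((T - t) / 200) X, |VV α w 3 t y + 3| ≤ 1 / 100 := fun y hy =>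
    V3_bound (V := fun j => VV α w j t) (a := (T - t) / 200) (by positivity) h.X1
      ((isSeq_V hs ht).mono fun z hz => ⟨lt_of_lt_of_le (by positivity) hz.1, hz.2.trans_lt hX⟩)
      h4 hb.2 hy
  exact ⟨h4, h3, out_of_bounds hp hs ht hτ hτX h.X1 hX h3 hc⟩

theorem isSeq_B (K T t : ℝ) : IsSeq (Ioo 0 xs) fun j => Bb K T j t :=
  (isSeq_pw _ sub0).add ((isSeq_pw _ sub0).cmul _)

theorem Sm.interior (h : Sm C K X τ1) (hp : Par e d α) (hs : XSol e t0 t1 xs w wt k kt)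
    (hX : X < xs) (ht : t ∈ Icc t0 t1) (hI : In C e T X w k t) (hτ : 0 < T - t)
    (hx : x ∈ Icc ((T - t) ^ (21 / 20 : ℝ)) X) {σ : ℝ} (hσ : |σ| = 1)
    (e1 : 0 ≤ σ * VT α wt 4 t x + 63 * K * (T - t) ^ 62 * pw (-63) 0 x)
    (e2 : σ * VV α w 5 t x - Bb K T 1 t x = 0) (e3 : σ * VV α w 6 t x - Bb K T 2 t x ≤ 0) :
    False := by
  have hl : 0 < (T - t) ^ (21 / 20 : ℝ) := by positivity
  have hx0 : 0 < x := hl.trans_le hx.1
  have K1 := h.K1
  obtain ⟨b1, b2⟩ := h.big hx0 hx.2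
  have f4 := h.szF hp hs hX ht hI hτ hx 4 le_rfl
  have c0 : 0 < x ^ (-63 : ℝ) := by positivity
  refine bar_alg (a := x ^ (-(19 / 20) : ℝ)) (hh := K * (T - t) ^ 63 * x ^ (-63 : ℝ))
    (g := 63 * K * (T - t) ^ 62 * pw (-63) 0 x) (f := σ * FF d α w wt 4 t x)
    (β := 1 - d + 2 * d * α + (4 : ℕ) * d) (d := d) hx0 (by positivity) (by positivity)
    hp.d0.le hp.d1 (hp.bb le_rfl) ?_ ?_ (v5 := σ * VV α w 5 t x) (v6 := σ * VV α w 6 t x)
    ?_ ?_ ?_
  · have a : σ * FF d α w wt 4 t x ≤ |FF d α w wt 4 t x| := by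
      refine (le_abs_self _).trans (le_of_eq ?_)
      rw [abs_mul, hσ, one_mul]
    refine (mul_le_mul_of_nonneg_right a hx0.le).trans ?_
    refine le_of_mul_le_mul_right ?_ (pow_pos hx0 3)
    linarith
  · rw [pw_zero]
    generalize T - t = τ at *
    rcases le_total (2 * x) τ with c | c
    · have : 0 ≤ K * τ ^ 62 * x ^ (-63 : ℝ) := by positivity
      have q := mul_le_mul_of_nonneg_left c this
      have : 0 < x ^ (-(19 / 20) : ℝ) := by positivity
      have : 0 ≤ K * τ ^ 63 * x ^ (-63 : ℝ) := by positivity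
      rw [pow_succ τ 62] at this ⊢
      nlinarith
    · have q := pow_le_pow_left₀ hτ.le c 62
      have e : 63 * K * (2 * x) ^ 62 * x ^ (-63 : ℝ) * x = 63 * 2 ^ 62 * K := by
        rw [pw63 hx0]; field_simp
      have q2 := mul_le_mul_of_nonneg_left q (show 0 ≤ 63 * K * x ^ (-63 : ℝ) * x by positivity)
      have : 0 ≤ K * τ ^ 63 * x ^ (-63 : ℝ) := by positivity
      have q3 : 63 * 2 ^ 62 * K ≤ K * 200 ^ 63 / 2 := by linarith
      linarith
  · simp only [Bb, pw_one _ hx0] at e2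
    linear_combination e2
  · simp only [Bb, pw_two _ hx0] at e3
    linear_combination e3
  · refine e1.trans (le_of_eq ?_)
    rw [FF]; ring

theorem Sm.barrier (h : Sm C K X τ1) (hp : Par e d α) (hs : XSol e t0 t1 xs w wt k kt)
    (hX : X < xs) (h01 : t0 ≤ t1) (hT : t1 < T) (hτ : T - t0 ≤ τ1) (hD : Dat α T X w t0)
    (hc : ∀ s ∈ Icc t0 t1, Cube α T w s)
    (hI : ∀ u ∈ Icc t0 t1, (∀ s ∈ Icc t0 u, Out T X w s) → ∀ s ∈ Icc t0 u, In C e T X w k s) :
    ∀ s ∈ Icc t0 t1, Br K α T X w s := by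
  have hX0 := h.X0
  have K1 := h.K1
  have τp : ∀ s, s ≤ t1 → 0 < T - s := fun s a => by linarith
  have τX : ∀ s, t0 ≤ s → T - s ≤ X := fun s a => by linarith [h.τa]
  have lX : ∀ s, t0 ≤ s → s ≤ t1 → (T - s) ^ (21 / 20 : ℝ) < X := fun s a b =>
    (lfacts (τp s b) ((τX s a).trans h.X1)).2.1.trans_lt (by linarith [τX s a])
  have l0 : ∀ s, s ≤ t1 → 0 < (T - s) ^ (21 / 20 : ℝ) := fun s b => Real.rpow_pos_of_pos (τp s b) _
  obtain ⟨σ, hσ, σ1, σ0⟩ : ∃ σ : Bool → ℝ, (∀ b, |σ b| = 1) ∧ σ true = 1 ∧ σ false = -1 :=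
    ⟨fun b => cond b 1 (-1), fun b => by cases b <;> simp, rfl, rfl⟩
  have σle : ∀ b (v : ℝ), σ b * v ≤ |v| := fun b v =>
    (le_abs_self _).trans (le_of_eq (by rw [abs_mul, hσ, one_mul]))
  have toBr : ∀ s, t0 ≤ s → s ≤ t1 → (∀ (j : Bool × Bool) y, (T - s) ^ (21 / 20 : ℝ) ≤ y → y ≤ X →
      cond j.1 (σ j.2 * VV α w 4 s y - Bb K T 0 s y) (σ j.2 * (VV α w 3 s X + 3) - 1 / 200) ≤ 0) →
      Br K α T X w s := fun s a b hj => by
    refine ⟨fun y hy => ?_, ?_⟩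
    · have a1 := hj (true, true) y hy.1 hy.2
      have a2 := hj (true, false) y hy.1 hy.2
      simp only [cond_true, σ1, σ0] at a1 a2
      rw [abs_le]; constructor <;> linarith
    · have a1 := hj (false, true) X (lX s a b).le le_rfl
      have a2 := hj (false, false) X (lX s a b).le le_rfl
      simp only [cond_false, σ1, σ0] at a1 a2
      rw [abs_le]; constructor <;> linarith
  have hl : ContinuousOn (fun s => (T - s) ^ (21 / 20 : ℝ)) (Icc t0 t1) :=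
    (continuousOn_const.sub continuousOn_id).rpow_const fun _ _ => Or.inr (by norm_num)
  have big3 : ∀ y, 0 < y → y ≤ X → 3 ≤ y ^ (-(19 / 20) : ℝ) := fun y a b =>
    le_trans (by linarith) (h.big a b).1
  have key := MP.neg_of_no_touch (ι := Bool × Bool) (l := fun s => (T - s) ^ (21 / 20 : ℝ))
    (r := fun _ => X) (t0 := t0) (t1 := t1) hl continuousOn_const
    (fun j s y => cond j.1 (σ j.2 * VV α w 4 s y - Bb K T 0 s y)
      (σ j.2 * (VV α w 3 s X + 3) - 1 / 200)) ?_ ?_ ?_ lX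
  · exact fun s hs' => toBr s hs'.1 hs'.2 fun j y a b => (key j s y hs'.1 hs'.2 a b).le
  · have hsub : MP.Reg (fun s => (T - s) ^ (21 / 20 : ℝ)) (fun _ => X) t0 t1 ⊆
        Icc t0 t1 ×ˢ Ioo 0 xs := fun p hp' =>
      ⟨⟨hp'.1, hp'.2.1⟩, (l0 _ hp'.2.1).trans_le hp'.2.2.1, hp'.2.2.2.trans_lt hX⟩
    rintro ⟨_ | _, b⟩
    · refine ContinuousOn.sub (continuousOn_const.mul (ContinuousOn.add ?_ continuousOn_const))
        continuousOn_const
      exact (cont_V hs.jw 3).comp (f := fun p : ℝ × ℝ => (p.1, X)) (by fun_prop)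
        fun p hp' => ⟨(hsub hp').1, hX0, hX⟩
    · refine ContinuousOn.mono (ContinuousOn.sub (continuousOn_const.mul (cont_V hs.jw 4))
        ((cont_pw _ 0).add (ContinuousOn.mul (by fun_prop) (cont_pw _ 0)))) hsub
  · rintro ⟨_ | _, b⟩ y a1 a2
    · have := σle b (VV α w 3 t0 X + 3)
      simp only [cond_false]
      linarith [hD.2]
    · have := σle b (VV α w 4 t0 y)
      have a3 := hD.1 y ⟨a1, a2⟩
      have y0 : 0 < y := (l0 t0 h01).trans_le a1
      have := big3 y y0 a2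
      have q : 0 ≤ ((T - t0) / y) ^ 63 := by have := τp t0 h01; positivity
      simp only [cond_true, Bb_zero _ _ _ y0]
      nlinarith
  intro j t x a1 a2 a3 a4 hz hP
  have ht : t ∈ Icc t0 t1 := ⟨a1.le, a2⟩
  have hIn : ∀ s ∈ Icc t0 t, In C e T X w k s := hI t ht fun s hs' =>
    (h.of_br hp hs.jw hX ⟨hs'.1, hs'.2.trans a2⟩ (τp s (hs'.2.trans a2)) (τX s hs'.1)
      (toBr s hs'.1 (hs'.2.trans a2) fun j y => hP j s y hs'.1 hs'.2)
      (hc s ⟨hs'.1, hs'.2.trans a2⟩)).2.2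
  have hIt := hIn t ⟨a1.le, le_rfl⟩
  have x0 : 0 < x := (l0 t a2).trans_le a3
  obtain ⟨_ | _, b⟩ := j
  · have := h.timeX hp hs hX ht (a2.trans_lt hT) hτ hIn (j := 3) (by norm_num)
    have q := σle b (VV α w 3 t X + 3)
    have q2 := abs_add_le (VV α w 3 t X - VV α w 3 t0 X) (VV α w 3 t0 X + 3)
    rw [show VV α w 3 t X - VV α w 3 t0 X + (VV α w 3 t0 X + 3) = VV α w 3 t X + 3 by ring] at q2
    simp only [cond_false] at hz
    linarith [hD.2]
  simp only [cond_true] at hz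
  have q := σle b (VV α w 4 t x)
  have q0 : 0 ≤ K * ((T - t) / x) ^ 63 := by have := τp t a2; positivity
  rcases a3.eq_or_lt with a3' | a3'
  · have v := h.szV hp hIt (τp t a2) ⟨a3, a4⟩ 4 (by norm_num)
    have e1 := (lfacts (τp t a2) ((τX t a1.le).trans h.X1)).2.2
    rw [a3'] at e1
    have e2 : K * ((T - t) / x) ^ 63 * x ^ 4 = K * x := by rw [div_pow, ← e1]; field_simp
    have v' : |VV α w 4 t x| ≤ K * ((T - t) / x) ^ 63 :=
      le_of_mul_le_mul_right (by rw [e2]; exact v) (pow_pos x0 4)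
    rw [Bb_zero _ _ _ x0] at hz
    linarith [big3 x x0 a4]
  rcases a4.eq_or_lt with a4' | a4'
  · subst a4'
    have := h.timeX hp hs hX ht (a2.trans_lt hT) hτ hIn (j := 4) le_rfl
    have q2 := abs_add_le (VV α w 4 t x - VV α w 4 t0 x) (VV α w 4 t0 x)
    rw [sub_add_cancel] at q2
    have q3 := hD.1 x ⟨(lX t0 le_rfl (a1.le.trans a2)).le, le_rfl⟩
    have q4 : ((T - t0) / x) ^ 63 ≤ 1 := pow_le_one₀
      (div_nonneg (τp t0 (a1.le.trans a2)).le x0.le) ((div_le_one x0).2 (τX t0 le_rfl))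
    rw [Bb_zero _ _ _ x0] at hz
    linarith [big3 x x0 a4]
  have hV := isSeq_V (α := α) hs.jw ht
  have hB := isSeq_B (xs := xs) K T t
  have hxs : x ∈ Ioo 0 xs := ⟨x0, a4'.trans hX⟩
  obtain ⟨e1, e2, e3⟩ := MP.touch_interior (l := fun s => (T - s) ^ (21 / 20 : ℝ))
    (r := fun _ => X) (f := fun s y => σ b * VV α w 4 s y - Bb K T 0 s y)
    (ft := fun s y => σ b * VT α wt 4 s y + 63 * K * (T - s) ^ 62 * pw (-63) 0 y)
    (fx := fun s y => σ b * VV α w 5 s y - Bb K T 1 s y)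
    (fxx := fun s y => σ b * VV α w 6 s y - Bb K T 2 s y) hl continuousOn_const a1 a2 a3' a4'
    (by
      have d1 : HasDerivWithinAt (fun s => VV α w 4 s x) (VT α wt 4 t x) (Iic t) t :=
        (dt_V hs.jw ht hxs 4).mono_of_mem_nhdsWithin
          (mem_of_superset (Icc_mem_nhdsLE a1) (Icc_subset_Icc le_rfl a2))
      have d2 := ((((((hasDerivAt_id t).const_sub T).pow 63).const_mul K).mul_const
        (pw (-63) 0 x)).const_add (pw (-(19 / 20)) 0 x)).hasDerivWithinAt (s := Iic t)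
      refine ((d1.const_mul (σ b)).sub d2).congr_deriv ?_
      simp only [id]
      push_cast
      ring)
    (fun y c1 c2 => ((hV 4 y ⟨(l0 t a2).trans c1, c2.trans hX⟩).const_mul (σ b)).sub
      (hB 0 y ⟨(l0 t a2).trans c1, c2.trans hX⟩))
    (((hV 5 x hxs).const_mul (σ b)).sub (hB 1 x hxs)) hz (hP (true, b))
  exact h.interior hp hs hX ht hIt (τp t a2) ⟨a3, a4⟩ (hσ b) e1 e2 e3

end

end Crest.Agent.N207.S.Out
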