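import Crest.Agent.N207.S.Out.Vj
import Crest.Agent.N207.S.Out.Lan

/-!
Row 207 (S0320), block OUTER: the size of the source term.
-/

set_option autoImplicit false

open Set Filter
open scoped Topology

namespace Crest.Agent.N207.S.Out

noncomputable section

variable {x e : ℝ} {w W k : ℕ → ℝ → ℝ}

theorem sz_pw4 {p : ℝ} (hp : |p| ≤ 1) (hx : 0 < x) : Sz 4 (24 * x ^ p) (pw p) x := by
  have := sz_pw hp hx 4
  norm_num [Nat.factorial] at this
  exact this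

theorem sz_ES {a b c κ : ℝ} (hx : 0 < x) (e0 : 0 < e) (e1 : e ≤ 1 / 2) (hW : Sz 6 (a * x) W x)
    (hζ : Sz 4 b (zeS e k) x) (hz : Sz 4 c (zS k) x) (hr : Sz 4 (κ / x) (rS w) x) :
    Sz 4 (16 * b * (769 * a) + 16 * (16 * c * (384 * κ)) * (16 * (385 * a) * (385 * a)))
      (ES e w W k) x := by
  have p1 := sz_pw4 (p := 1) (by simp) hx
  have pm := sz_pw4 (p := -1) (by simp) hx
  rw [Real.rpow_one] at p1
  rw [Real.rpow_neg_one] at pm
  have h2 : Sz 4 (385 * a) (s2S W) x :=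
    (((hW.sh hx).mono (m' := 4) (by norm_num) le_rfl).sub hx
      (pm.pr hx (hW.mono (by norm_num) le_rfl))).le (le_of_eq (by field_simp; norm_num))
  have h1 : Sz 4 (769 * a) (s1S W) x :=
    ((p1.pr hx ((hW.sh hx).sh hx)).sub hx h2).le (le_of_eq (by field_simp; norm_num))
  have hq : Sz 4 (384 * κ) (pr (pw 1) (rS w)) x :=
    (p1.pr hx hr).le (le_of_eq (by field_simp; ring))
  have he : |2 * e| ≤ 1 := by rw [abs_of_pos (by linarith)]; linarith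
  refine (((hζ.pr hx h1).cmul he hx).sub hx
    (((hz.pr hx hq).pr hx (h2.pr hx h2)).cmul he hx)).le (le_of_eq ?_)
  norm_num

theorem sz_z {C : ℝ} (m : ℕ) (hx : 0 < x) (hk : ∀ j ≤ m, |k j x| * x ^ (j + 1) ≤ C) :
    Sz m (m.factorial + 2 ^ m * m.factorial * C) (zS k) x := by
  have hk' : Sz m (C / x) k x := fun j hj => by
    rw [le_div_iff₀ hx, mul_assoc, ← pow_succ]; exact hk j hj
  have p0 := sz_pw (p := 0) (by simp) hx m
  have p1 := sz_pw (p := 1) (by simp) hx m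
  refine (p0.sub hx (p1.pr hx hk')).le (le_of_eq ?_)
  rw [Real.rpow_zero, Real.rpow_one]
  field_simp

theorem sz_ze {C : ℝ} (m : ℕ) (hx : 0 < x) (e0 : 0 < e)
    (hk : ∀ j ≤ m, |k j x| * x ^ (j + 1) ≤ C) :
    Sz m (2 * m.factorial + 2 ^ m * m.factorial * C) (zeS e k) x := by
  have p0 := sz_pw (p := 0) (by simp) hx m
  have he : |1 / (1 + 2 * e)| ≤ 1 := by
    rw [abs_of_pos (by positivity), div_le_one (by positivity)]; linarith
  refine ((sz_z m hx hk).sub hx (p0.cmul he hx)).le (le_of_eq ?_)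
  rw [Real.rpow_zero]; ring

theorem landau_sz (m : ℕ) : ∃ L ρ0 : ℝ, 1 ≤ L ∧ 0 < ρ0 ∧ ∀ (f : ℕ → ℝ → ℝ) (x ρ B : ℝ) (n : ℕ),
    n ≤ m → IsSeq (Icc (x / 2) x) f → 0 < x → 0 < ρ → ρ ≤ ρ0 → ρ ≤ 1 →
    (∀ y ∈ Icc (x / 2) x, |f 0 y| ≤ B) → (∀ y ∈ Icc (x / 2) x, |f m y| * (ρ * x) ^ m ≤ B) →
    Sz n (L * B / ρ ^ n) f x := by
  obtain ⟨L, ρ0, hL, h0, h⟩ := landau m
  refine ⟨L, ρ0, hL, h0, fun f x ρ B n hn hf hx hρ a b c d j hj => ?_⟩
  have := h f x ρ B hf hx hρ a c d j (hj.trans hn)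
  rw [le_div_iff₀ (by positivity)]
  refine le_trans ?_ this
  rw [mul_pow, mul_assoc, mul_comm (x ^ j)]
  exact mul_le_mul_of_nonneg_left
    (mul_le_mul_of_nonneg_right (pow_le_pow_of_le_one hρ.le b hj) (by positivity)) (abs_nonneg _)

theorem rpow_div_nat {s : ℝ} (hs : 0 < s) (p : ℝ) (n N : ℕ) (h : (N : ℝ) * p = n) :
    (s ^ N) ^ p = s ^ n := by
  rw [← Real.rpow_natCast, ← Real.rpow_mul hs.le, h, Real.rpow_natCast]

theorem kc_nonneg {C : ℝ} (hC : 0 ≤ C) (m : ℕ) : 0 ≤ kc C m := by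
  induction m with
  | zero => simp [kc]
  | succ m ih => rw [kc]; positivity

/-- the source term is `O(x^(21/10))` in the scale invariant `C⁴` norm -/
theorem src (C : ℝ) (hC : 1 ≤ C) : ∃ X1 : ℝ, 0 < X1 ∧ ∀ (e α xs x : ℝ) (w W k : ℕ → ℝ → ℝ),
    0 < e → e ≤ 1 / 2 → -1 ≤ α → α ≤ 0 → IsSeq (Ioo 0 xs) w → IsSeq (Ioo 0 xs) W →
    IsSeq (Ioo 0 xs) k → (∀ y ∈ Ioo 0 xs, 0 < w 0 y) → (∀ y, W 0 y = w 0 y - y) →
    (∀ y, W 40 y = w 40 y) → 0 < x → x ≤ X1 → x < xs →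
    (∀ y ∈ Icc (x / 2) x, (∀ j ≤ 40, |w (j + 1) y| * y ^ j ≤ C ∧ |k j y| * y ^ (j + 1) ≤ C) ∧
      |w 0 y - y| ≤ C * y ^ (11 / 4 : ℝ) ∧
      |1 - y * k 0 y - 1 / (1 + 2 * e)| ≤ C * y ^ (3 / 4 : ℝ)) →
    Sz 4 (x ^ (21 / 10 : ℝ)) (pr (pw (-α)) (ES e w W k)) x := by
  obtain ⟨L, ρ0, hL, hρ0, hlan⟩ := landau_sz 40
  obtain ⟨cz, hcz⟩ : ∃ cz : ℝ, cz = 2 * (40 : ℕ).factorial + 2 ^ 40 * (40 : ℕ).factorial * C :=
    ⟨_, rfl⟩
  obtain ⟨f40, hf40⟩ : ∃ f : ℝ, f = (40 : ℕ).factorial := ⟨_, rfl⟩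
  have hf1 : 1 ≤ f40 := by rw [hf40]; exact_mod_cast Nat.factorial_pos 40
  obtain ⟨P, hP⟩ : ∃ P : ℝ, P = 2 ^ 40 := ⟨_, rfl⟩
  have hP1 : 1 ≤ P := by rw [hP]; norm_num
  have hczC : C ≤ cz := by
    rw [hcz, ← hf40, ← hP]; nlinarith [mul_le_mul hP1 hf1 zero_le_one (by linarith)]
  have hκ := kc_nonneg (zero_le_one.trans hC) 4
  obtain ⟨κ, hκe⟩ : ∃ κ, κ = kc C 4 := ⟨_, rfl⟩
  rw [← hκe] at hκ
  obtain ⟨K, hK⟩ : ∃ K : ℝ, K = 384 * (16 * (L * (P * cz)) * (769 * (L * (P * C))) +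
    16 * (16 * cz * (384 * κ)) * (16 * (385 * (L * (P * C))) * (385 * (L * (P * C))))) := ⟨_, rfl⟩
  have hC0 : 0 < C := by linarith
  have hcz0 : 0 < cz := by linarith
  have hK0 : 0 ≤ K := by rw [hK]; positivity
  obtain ⟨s0, hs0, a1, a2, a3, a4⟩ : ∃ s0 : ℝ, 0 < s0 ∧ s0 ≤ 1 ∧ s0 ≤ ρ0 ∧ s0 * (2 * C) ≤ 1 ∧
      s0 * K ≤ 1 := by
    refine ⟨min (min 1 ρ0) (1 / (2 * C + K)), by positivity,
      (min_le_left _ _).trans (min_le_left _ _), (min_le_left _ _).trans (min_le_right _ _),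
      ?_, ?_⟩
    · refine (mul_le_mul_of_nonneg_right (min_le_right _ _) (by positivity)).trans ?_
      rw [div_mul_eq_mul_div, div_le_one (by positivity)]; linarith
    · refine (mul_le_mul_of_nonneg_right (min_le_right _ _) hK0).trans ?_
      rw [div_mul_eq_mul_div, div_le_one (by positivity)]; linarith
  refine ⟨s0 ^ 160, by positivity, ?_⟩
  intro e α xs x w W k e0 e1 α0 α1 hw hW hk hpos W0 W40 hx hx1 hxs hI
  obtain ⟨s, hs, hsx⟩ : ∃ s : ℝ, 0 < s ∧ x = s ^ 160 :=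
    ⟨x ^ ((160 : ℕ)⁻¹ : ℝ), by positivity, (Real.rpow_inv_natCast_pow hx.le (by norm_num)).symm⟩
  have hss : s ≤ s0 := by
    rw [hsx] at hx1
    exact le_of_pow_le_pow_left₀ (by norm_num) hs0.le hx1
  have s1 : s ≤ 1 := hss.trans a1
  have spow : ∀ n : ℕ, s ^ (n + 1) ≤ s := fun n => by
    rw [pow_succ]; exact mul_le_of_le_one_left hs.le (pow_le_one₀ hs.le s1)
  have hsub : Icc (x / 2) x ⊆ Ioo 0 xs := fun y hy => ⟨by linarith [hy.1], hy.2.trans_lt hxs⟩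
  have hxI : x ∈ Icc (x / 2) x := ⟨by linarith, le_rfl⟩
  have r1 : x ^ (11 / 4 : ℝ) = s ^ 440 := by rw [hsx]; exact rpow_div_nat hs _ _ _ (by norm_num)
  have r2 : x ^ (3 / 4 : ℝ) = s ^ 120 := by rw [hsx]; exact rpow_div_nat hs _ _ _ (by norm_num)
  have r3 : x ^ (21 / 10 : ℝ) = s ^ 336 := by rw [hsx]; exact rpow_div_nat hs _ _ _ (by norm_num)
  have hyx : ∀ y ∈ Icc (x / 2) x, ∀ n : ℕ, x ^ n ≤ 2 ^ n * y ^ n := fun y hy n => by
    rw [← mul_pow]; exact pow_le_pow_left₀ hx.le (by linarith [hy.1]) n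
  have hWs : Sz 6 (L * (P * C) * s ^ 238 * x) W x := by
    refine (hlan W x (s ^ 7) (P * C * s ^ 440) 6 (by norm_num) (hW.mono hsub) hx (by positivity)
      ((spow 6).trans (hss.trans a2)) ((spow 6).trans s1) (fun y hy => ?_)
      fun y hy => ?_).le (le_of_eq ?_)
    · rw [W0]
      refine (hI y hy).2.1.trans ?_
      have : y ^ (11 / 4 : ℝ) ≤ s ^ 440 := by
        rw [← r1]; exact Real.rpow_le_rpow (hsub hy).1.le hy.2 (by norm_num)
      have h2 : 0 ≤ C * s ^ 440 := by positivity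
      nlinarith
    · rw [W40]
      have b1 := ((hI y hy).1 39 (by norm_num)).1
      have b2 := mul_le_mul_of_nonneg_left (hyx y hy 39) (abs_nonneg (w 40 y))
      have b3 : |w 40 y| * x ^ 39 ≤ P * C := by
        have : (2 : ℝ) ^ 39 ≤ P := by rw [hP]; norm_num
        nlinarith
      have e : |w 40 y| * (s ^ 7 * x) ^ 40 = |w 40 y| * x ^ 39 * s ^ 440 := by
        rw [mul_pow, pow_succ x 39]; nth_rewrite 2 [hsx]; ring
      rw [e]
      exact mul_le_mul_of_nonneg_right b3 (by positivity)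
    · rw [hsx]; field_simp
  have hζ : Sz 4 (L * (P * cz) * s ^ 108) (zeS e k) x := by
    refine (hlan (zeS e k) x (s ^ 3) (P * cz * s ^ 120) 4 (by norm_num)
      ((isSeq_ze sub0 hk).mono hsub) hx (by positivity)
      ((spow 2).trans (hss.trans a2)) ((spow 2).trans s1) (fun y hy => ?_)
      fun y hy => ?_).le (le_of_eq ?_)
    · rw [zeS_zero]
      refine (hI y hy).2.2.trans ?_
      have : y ^ (3 / 4 : ℝ) ≤ s ^ 120 := by
        rw [← r2]; exact Real.rpow_le_rpow (hsub hy).1.le hy.2 (by norm_num)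
      have h2 : C ≤ P * cz := by nlinarith
      exact mul_le_mul h2 this (Real.rpow_nonneg (hsub hy).1.le _) (by positivity)
    · have b1 := sz_ze 40 (hsub hy).1 e0 (fun j hj => ((hI y hy).1 j hj).2) 40 le_rfl
      rw [← hcz] at b1
      have b2 := mul_le_mul_of_nonneg_left (hyx y hy 40) (abs_nonneg (zeS e k 40 y))
      rw [← hP] at b2
      have b3 : |zeS e k 40 y| * x ^ 40 ≤ P * cz := by nlinarith
      have e : |zeS e k 40 y| * (s ^ 3 * x) ^ 40 = |zeS e k 40 y| * x ^ 40 * s ^ 120 := by ring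
      rw [e]
      exact mul_le_mul_of_nonneg_right b3 (by positivity)
    · field_simp
  have hz : Sz 4 cz (zS k) x :=
    (sz_z 40 hx fun j hj => ((hI x hxI).1 j hj).2).mono (by norm_num)
      (by rw [hcz, ← hf40]; linarith)
  have hl : x ≤ 2 * w 0 x := by
    have b1 := (abs_le.1 (hI x hxI).2.1).1
    rw [r1] at b1
    have b2 : s ^ 440 = s ^ 280 * x := by rw [hsx]; ring
    have b3 : s ^ 280 * (2 * C) ≤ 1 :=
      (mul_le_mul_of_nonneg_right ((spow 279).trans hss) (by positivity)).trans a3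
    nlinarith
  have hr : Sz 4 (κ / x) (rS w) x := by
    rw [hκe]
    exact sz_rS isOpen_Ioo hw (fun y hy => (hpos y hy).ne') (hsub hxI) hx hl 4
      fun j hj => ((hI x hxI).1 j (hj.trans (by norm_num))).1
  have hE := sz_ES hx e0 e1 hWs hζ hz hr
  have pa := sz_pw4 (p := -α) (by rw [abs_le]; constructor <;> linarith) hx
  have pa1 : x ^ (-α) ≤ 1 :=
    Real.rpow_le_one hx.le (by rw [hsx]; exact pow_le_one₀ hs.le s1) (by linarith)
  refine ((pa.le (show _ ≤ 24 by linarith)).pr hx hE).le ?_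
  rw [r3]
  obtain ⟨A, hA⟩ : ∃ A, A = 16 * (L * (P * cz)) * (769 * (L * (P * C))) := ⟨_, rfl⟩
  obtain ⟨B, hB⟩ : ∃ B, B = 16 * (16 * cz * (384 * κ)) *
    (16 * (385 * (L * (P * C))) * (385 * (L * (P * C)))) := ⟨_, rfl⟩
  have hB0 : 0 ≤ B := by rw [hB]; positivity
  have e : 2 ^ 4 * 24 * (16 * (L * (P * cz) * s ^ 108) * (769 * (L * (P * C) * s ^ 238)) +
      16 * (16 * cz * (384 * κ)) * (16 * (385 * (L * (P * C) * s ^ 238)) *
        (385 * (L * (P * C) * s ^ 238)))) = 384 * (A + B * s ^ 130) * s ^ 10 * s ^ 336 := by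
    rw [hA, hB]; ring
  rw [e]
  refine mul_le_of_le_one_left (by positivity) ?_
  rw [← hA, ← hB] at hK
  have b1 : 384 * (A + B * s ^ 130) ≤ K := by
    have : B * s ^ 130 ≤ B := mul_le_of_le_one_right hB0 ((spow 129).trans s1)
    rw [hK]; linarith
  have b2 : 384 * (A + B * s ^ 130) * s ^ 10 ≤ K * s0 :=
    mul_le_mul b1 ((spow 9).trans hss) (by positivity) hK0
  exact b2.trans (by rw [mul_comm]; exact a4)

end

end Crest.Agent.N207.S.Out
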