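import Crest.Agent.N207.S.Out.Mp
import Crest.Agent.N207.X.JS

/-!
Row 207 (S0320), block OUTER: transversality of the exit and the final statement `outerStmt`.
-/

set_option autoImplicit false

open Set Filter
open scoped Topology

namespace Crest.Agent.N207.S.Out

noncomputable section

variable {C K X τ1 e d α t0 t1 xs t T x : ℝ} {w wt k kt : ℕ → ℝ → ℝ → ℝ}

theorem dt_diag (h : Jet t0 t1 xs w wt) (ht : t ∈ Icc t0 t1) (hT : t1 < T) (hxs : T - t0 < xs)
    (j : ℕ) : HasDerivWithinAt (fun s => VV α w j s (T - s))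
      (VT α wt j t (T - t) - VV α w (j + 1) t (T - t)) (Icc t0 t1) t := by
  have hm : ∀ s ∈ Icc t0 t1, T - s ∈ Ioo 0 xs := fun s hs =>
    ⟨by linarith [hs.2], by linarith [hs.1]⟩
  have F := X.hasFDerivWithinAt_of_partial (convex_Icc t0 t1) (u := VV α w j) (Φ := VT α wt j)
    (U := Ioo 0 xs) (fun s hs y hy => dt_V h hs hy j) (cont_VT h j) ht (hm t ht)
    (isSeq_V h ht j _ (hm t ht)).hasFDerivAt
  have c : HasDerivWithinAt (fun s : ℝ => (s, T - s)) ((1 : ℝ), (-1 : ℝ)) (Icc t0 t1) t :=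
    ((hasDerivAt_id t).prodMk ((hasDerivAt_id t).const_sub T)).hasDerivWithinAt
  have := HasFDerivWithinAt.comp_hasDerivWithinAt (f := fun s : ℝ => (s, T - s)) t F c
    fun s hs => mk_mem_prod hs (hm s hs)
  refine this.congr_deriv ?_
  simp
  ring

theorem out_dir {f : ℝ → ℝ} {f' η : ℝ} (h : HasDerivWithinAt f f' (Icc t0 t1) t) (h0 : t0 ≤ t)
    (h1 : t < t1) (hη : |f t| = η) (hp : 0 < f t * f') : ∃ s, t < s ∧ s ≤ t1 ∧ η < |f s| := by
  have a := ((h.const_mul (f t)).mono (show Ioc t t1 ⊆ Icc t0 t1 from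
    fun s hs => ⟨h0.trans hs.1.le, hs.2⟩))
  rw [hasDerivWithinAt_iff_tendsto_slope' (by simp)] at a
  have : (𝓝[Ioc t t1] t).NeBot := by rw [nhdsWithin_Ioc_eq_nhdsGT h1]; infer_instance
  obtain ⟨s, b, c⟩ := ((a.eventually (lt_mem_nhds hp)).and self_mem_nhdsWithin).exists
  refine ⟨s, c.1, c.2, ?_⟩
  rw [slope_def_field, lt_div_iff₀ (sub_pos.2 c.1), zero_mul] at b
  have q := le_abs_self (f t * f s)
  rw [abs_mul, hη] at q
  have q2 := abs_mul_abs_self (f t)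
  rw [hη] at q2
  by_contra hc
  have := mul_le_mul_of_nonneg_left (not_lt.1 hc) (hη ▸ abs_nonneg (f t))
  linarith

theorem Sm.trans (h : Sm C K X τ1) (hp : Par e d α) (hs : XSol e t0 t1 xs w wt k kt)
    (hX : X < xs) (h0 : t0 ≤ t) (h1 : t < t1) (hT : t1 < T) (hτ : T - t0 ≤ τ1)
    (hb : Br K α T X w t) (hc : Cube α T w t) (hI : In C e T X w k t) {j : ℕ} (hj : j < 3)
    (hn : |nn α T w j t| = 1 / 100) : ∃ s, t < s ∧ s ≤ t1 ∧ 1 / 100 < |nn α T w j s| := by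
  have ht : t ∈ Icc t0 t1 := ⟨h0, h1.le⟩
  have τ0 : 0 < T - t := by linarith
  have τX : T - t ≤ X := by linarith [h.τa]
  have d1 := dt_diag (α := α) hs.jw ht hT (by linarith [h.τa]) j
  obtain ⟨m, hm⟩ : ∃ m, 3 - j = m + 1 := ⟨2 - j, by omega⟩
  have d2 := (((hasDerivAt_id t).const_sub T).pow (m + 1)).hasDerivWithinAt (s := Icc t0 t1)
  have d3 := d1.div d2 (pow_pos τ0 _).ne'
  have e0 : ∀ s, nn α T w j s = VV α w j s (T - s) / (T - s) ^ (m + 1) := fun s => by rw [nn, hm]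
  refine out_dir (f := nn α T w j) (d3.congr (fun s _ => e0 s) (e0 t)) h0 h1 hn ?_
  obtain ⟨h4, h3, -⟩ := h.of_br hp hs.jw hX ht τ0 τX hb hc
  have hm' : T - t ∈ Icc ((T - t) / 200) X := ⟨by linarith, τX⟩
  have a4 := h4 _ hm'
  have a3 := h3 _ hm'
  obtain ⟨a0, a1, a2⟩ := hc.abs τ0
  have f := h.szF hp hs hX ht hI τ0
    ⟨(lfacts τ0 (τX.trans h.X1)).2.1.trans (by linarith), τX⟩ j (by omega)
  have hβ := hp.bb (j := j) (by omega)
  have eF : VT α wt j t (T - t) - VV α w (j + 1) t (T - t) = FF d α w wt j t (T - t) +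
      (d * (T - t) * VV α w (j + 2) t (T - t) +
        (1 - d + 2 * d * α + j * d - 1) * VV α w (j + 1) t (T - t)) := by rw [FF]; ring
  have eV : VV α w j t (T - t) = nn α T w j t * (T - t) ^ (m + 1) := by
    rw [e0, div_mul_cancel₀ _ (pow_pos τ0 _).ne']
  have e3 : (T - t) ^ (m + 1) * (T - t) ^ j = (T - t) ^ 3 := by
    rw [← pow_add]; congr 1; omega
  simp only [id, Pi.pow_apply, Nat.add_sub_cancel]
  rw [eF, eV]
  obtain ⟨s, s0, s1, hs', hpw⟩ := root20 τ0 (τX.trans h.X1)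
  rw [(hpw (19 / 20) 19 (by norm_num)).2] at a4
  rw [(hpw (21 / 10) 42 (by norm_num)).1] at f
  have sz : Sz 4 (4 * (T - t) ^ 3) (fun i => VV α w i t) (T - t) := by
    have p3 := pow_pos τ0 3
    intro i hi
    interval_cases i
    · simp only [pow_zero, mul_one]; linarith
    · nlinarith [mul_le_mul_of_nonneg_right a1 τ0.le]
    · nlinarith [mul_le_mul_of_nonneg_right a2 (pow_pos τ0 2).le]
    · have := abs_sub (VV α w 3 t (T - t) + 3) 3
      rw [add_sub_cancel_right, abs_of_pos (show (0 : ℝ) < 3 by norm_num)] at this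
      nlinarith
    · refine (mul_le_mul_of_nonneg_right a4 (pow_pos τ0 4).le).trans ?_
      have : 2 * (s ^ 19)⁻¹ * (T - t) ^ 4 = 2 * s * (T - t) ^ 3 := by rw [hs']; field_simp
      rw [this]
      nlinarith
  have v1 := sz (j + 1) (by omega)
  have v2 := sz (j + 2) (by omega)
  have f' : |FF d α w wt j t (T - t)| * (T - t) ^ (j + 1) ≤ (T - t) ^ 3 / 1000 := by
    rw [pow_succ, ← mul_assoc]
    refine (mul_le_mul_of_nonneg_right f τ0.le).trans ?_
    have : s ^ 42 * (T - t) = s * s * (T - t) ^ 3 := by rw [hs']; ring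
    rw [this]
    have : s * s ≤ 1 / 1000 := by nlinarith
    nlinarith [pow_pos τ0 3]
  simp only at v1 v2
  generalize T - t = τ at *
  generalize 1 - d + 2 * d * α + j * d - 1 = β at *
  generalize nn α T w j t = n at *
  generalize FF d α w wt j t τ = F at *
  generalize VV α w (j + 1) t τ = V1 at *
  generalize VV α w (j + 2) t τ = V2 at *
  have b1 : |F + (d * τ * V2 + β * V1)| * τ ^ (j + 1) ≤ τ ^ 3 / 200 := by
    have t1 := abs_add_le F (d * τ * V2 + β * V1)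
    have t2 := abs_add_le (d * τ * V2) (β * V1)
    rw [abs_mul, abs_mul, abs_mul, abs_of_pos hp.d0, abs_of_pos τ0] at t2
    have p := pow_pos τ0 (j + 1)
    have q1 := mul_le_mul_of_nonneg_right (t1.trans (add_le_add le_rfl t2)) p.le
    have q2 : d * (|V2| * τ ^ (j + 2)) ≤ 2 / 10 ^ 6 * (4 * τ ^ 3) :=
      mul_le_mul hp.d1 v2 (by positivity) (by norm_num)
    have q3 : |β| * (|V1| * τ ^ (j + 1)) ≤ 1 / 10 ^ 5 * (4 * τ ^ 3) :=
      mul_le_mul hβ v1 (by positivity) (by norm_num)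
    rw [pow_succ τ (j + 1)] at q2
    nlinarith [pow_pos τ0 3]
  generalize F + (d * τ * V2 + β * V1) = E at *
  have b2 : |E| ≤ τ ^ m / 200 := by
    refine le_of_mul_le_mul_right (b1.trans (le_of_eq ?_)) (pow_pos τ0 (j + 1))
    rw [← e3]; ring
  have pm := pow_pos τ0 m
  have e4 : n * ((E * τ ^ (m + 1) - n * τ ^ (m + 1) * (((m + 1 : ℕ) : ℝ) * τ ^ m * -1)) /
      (τ ^ (m + 1)) ^ 2) = (n * E + n * n * (m + 1) * τ ^ m) / τ ^ (m + 1) := by
    push_cast
    field_simp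
    ring
  rw [e4]
  refine div_pos ?_ (pow_pos τ0 _)
  have q := neg_abs_le (n * E)
  rw [abs_mul, hn] at q
  have q2 := abs_mul_abs_self n
  rw [hn] at q2
  rw [← q2]
  have : (0 : ℝ) ≤ m := Nat.cast_nonneg m
  nlinarith

/-- **Block OUTER.** -/
theorem outerStmt : OuterStmt := by
  intro C hC
  obtain ⟨K, X0, hX0, H⟩ := exists_sm C hC
  refine ⟨X0, hX0, fun X a b => ?_⟩
  obtain ⟨τ1, h⟩ := H X a b
  refine ⟨τ1, h.τ0, h.τa, fun e d α t0 t t' T xs w wt k kt hp hX hs h0 h1 hT hτ hD hc hI => ?_⟩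
  have hb := h.barrier hp (hs.mono le_rfl h1) hX h0 (h1.trans_lt hT) hτ hD hc hI
  have ho : ∀ s ∈ Icc t0 t, Out T X w s := fun s hs' =>
    (h.of_br hp hs.jw hX ⟨hs'.1, hs'.2.trans h1⟩ (by linarith [hs'.2])
      (by linarith [hs'.1, h.τa]) (hb s hs') (hc s hs')).2.2
  have ht : t ∈ Icc t0 t := ⟨h0, le_rfl⟩
  exact ⟨ho, fun h2 j hj hn =>
    h.trans hp hs hX h0 h2 hT hτ (hb t ht) (hc t ht) (hI t ht ho t ht) hj hn⟩

end

end Crest.Agent.N207.S.Out
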